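/-
Row 292 (S0540), unit JORDAN, file Geo/Sq179 (helper179).  Prefix `sq9_`, defs `sq9*`; exits `jd179_`.
SQUARE LATTICE PORT of R291/Geo/Hex (B.1, B.2) for the frozen `faceRegionSq`, `cornersOf`,
`OnPolygon`, `IsAdmissibleApprox` of `Def_0468`.

S1  faces, cover, local finiteness; `z ∈ faceRegionSq δ F ↔ every closed square through z is in F`;
    closure, frontier; corners: `OnPolygon` = the corner lies on the frontier.
S2  NO PINCH POINT: the frontier is an injective continuous image of the circle, so no corner has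
    its four faces alternately in and out of `F`; hence `F` and its complement are connected for the
    nearest neighbour adjacency of faces.
S3  the four geometry contracts J2-J5 of Exit/JORDAN in their exact words: `jd179_poly`,
    `jd179_inside`, `jd179_reach`, `jd179_bounded`.
-/
import Mathlib
import Claimed.Prelude.Def_0468
import Claimed.Agent.R292.Defs.JORDAN

set_option autoImplicit false
open Claims.C0468 MeasureTheory Filter Topology Set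

namespace Claimed.Agent.R292

/-! ## S1.1 faces -/

/-- the closed square face with lower left corner `δ f`. -/
def sq9Face (δ : ℝ) (f : ℤ × ℤ) : Set (ℝ × ℝ) :=
  Set.Icc (δ * f.1) (δ * (f.1 + 1)) ×ˢ Set.Icc (δ * f.2) (δ * (f.2 + 1))

/-- the centre of a face. -/
noncomputable def sq9Ctr (δ : ℝ) (f : ℤ × ℤ) : ℝ × ℝ := (δ * (f.1 + 1 / 2), δ * (f.2 + 1 / 2))

/-- the position of a corner. -/
def sq9Pos (δ : ℝ) (v : ℤ × ℤ) : ℝ × ℝ := (δ * v.1, δ * v.2)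

theorem sq9_mem_face {δ : ℝ} {f : ℤ × ℤ} {z : ℝ × ℝ} :
    z ∈ sq9Face δ f ↔ (δ * f.1 ≤ z.1 ∧ z.1 ≤ δ * (f.1 + 1)) ∧ (δ * f.2 ≤ z.2 ∧ z.2 ≤ δ * (f.2 + 1)) :=
  Iff.rfl

theorem sq9_ctr_mem {δ : ℝ} (hδ : 0 < δ) (f : ℤ × ℤ) : sq9Ctr δ f ∈ sq9Face δ f := by
  rw [sq9_mem_face]
  simp only [sq9Ctr]
  refine ⟨⟨?_, ?_⟩, ⟨?_, ?_⟩⟩ <;> nlinarith

theorem sq9_cover {δ : ℝ} (hδ : 0 < δ) (z : ℝ × ℝ) : ∃ f : ℤ × ℤ, z ∈ sq9Face δ f := by
  refine ⟨(⌊z.1 / δ⌋, ⌊z.2 / δ⌋), ?_⟩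
  rw [sq9_mem_face]
  have h1 := Int.floor_le (z.1 / δ)
  have h2 := Int.lt_floor_add_one (z.1 / δ)
  have h3 := Int.floor_le (z.2 / δ)
  have h4 := Int.lt_floor_add_one (z.2 / δ)
  rw [le_div_iff₀ hδ] at h1 h3
  rw [div_lt_iff₀ hδ] at h2 h4
  refine ⟨⟨?_, ?_⟩, ⟨?_, ?_⟩⟩ <;> simp only <;> nlinarith

/-- one coordinate: a point strictly inside the slab of `a` lies in the closed slab of `b` only if
`b = a`. -/
theorem sq9_slab_unique {δ : ℝ} (hδ : 0 < δ) {a b : ℤ} {x : ℝ} (h1 : δ * a < x)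
    (h2 : x < δ * (a + 1)) (h3 : δ * b ≤ x) (h4 : x ≤ δ * (b + 1)) : b = a := by
  have h5 : δ * (b : ℝ) < δ * (a + 1) := lt_of_le_of_lt h3 h2
  have h6 : δ * (a : ℝ) < δ * (b + 1) := lt_of_lt_of_le h1 h4
  have h7 : (b : ℝ) < a + 1 := lt_of_mul_lt_mul_left h5 hδ.le
  have h8 : (a : ℝ) < b + 1 := lt_of_mul_lt_mul_left h6 hδ.le
  have h9 : b < a + 1 := by exact_mod_cast h7
  have h10 : a < b + 1 := by exact_mod_cast h8
  omega

/-- one coordinate: two closed slabs which meet are equal or neighbours. -/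
theorem sq9_slab_near {δ : ℝ} (hδ : 0 < δ) {a b : ℤ} {x : ℝ} (h1 : δ * a ≤ x)
    (h2 : x ≤ δ * (a + 1)) (h3 : δ * b ≤ x) (h4 : x ≤ δ * (b + 1)) :
    b = a ∨ (b = a + 1 ∧ x = δ * (a + 1)) ∨ (b = a - 1 ∧ x = δ * a) := by
  have h5 : δ * (b : ℝ) ≤ δ * (a + 1) := le_trans h3 h2
  have h6 : δ * (a : ℝ) ≤ δ * (b + 1) := le_trans h1 h4
  have h7 : (b : ℝ) ≤ a + 1 := le_of_mul_le_mul_left h5 hδ
  have h8 : (a : ℝ) ≤ b + 1 := le_of_mul_le_mul_left h6 hδ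
  have h9 : b ≤ a + 1 := by exact_mod_cast h7
  have h10 : a ≤ b + 1 := by exact_mod_cast h8
  have h11 : b = a ∨ b = a + 1 ∨ b = a - 1 := by omega
  rcases h11 with h | h | h
  · exact Or.inl h
  · refine Or.inr (Or.inl ⟨h, le_antisymm h2 ?_⟩)
    rw [h] at h3; push_cast at h3; exact h3
  · refine Or.inr (Or.inr ⟨h, le_antisymm ?_ h1⟩)
    rw [h] at h4; push_cast at h4
    have : δ * ((a : ℝ) - 1 + 1) = δ * a := by ring
    linarith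

/-- moving a point of the face towards the centre puts it in the open square. -/
theorem sq9_segment_strict {δ : ℝ} (hδ : 0 < δ) {u : ℤ × ℤ} {z : ℝ × ℝ} (h : z ∈ sq9Face δ u)
    {t : ℝ} (ht0 : 0 < t) (ht1 : t ≤ 1) :
    (δ * u.1 < (z + t • (sq9Ctr δ u - z)).1 ∧ (z + t • (sq9Ctr δ u - z)).1 < δ * (u.1 + 1)) ∧
    (δ * u.2 < (z + t • (sq9Ctr δ u - z)).2 ∧ (z + t • (sq9Ctr δ u - z)).2 < δ * (u.2 + 1)) := by
  obtain ⟨⟨h1, h2⟩, ⟨h3, h4⟩⟩ := sq9_mem_face.1 h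
  simp only [sq9Ctr, Prod.fst_add, Prod.smul_fst, Prod.fst_sub, smul_eq_mul, Prod.snd_add,
    Prod.smul_snd, Prod.snd_sub]
  have ht : 0 ≤ 1 - t := by linarith
  have hd : 0 < t * δ := mul_pos ht0 hδ
  refine ⟨⟨?_, ?_⟩, ⟨?_, ?_⟩⟩
  · nlinarith [mul_nonneg ht (sub_nonneg.2 h1)]
  · nlinarith [mul_nonneg ht (sub_nonneg.2 h2)]
  · nlinarith [mul_nonneg ht (sub_nonneg.2 h3)]
  · nlinarith [mul_nonneg ht (sub_nonneg.2 h4)]

theorem sq9_segment_mem {δ : ℝ} (hδ : 0 < δ) {u : ℤ × ℤ} {z : ℝ × ℝ} (h : z ∈ sq9Face δ u)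
    {t : ℝ} (ht0 : 0 ≤ t) (ht1 : t ≤ 1) : z + t • (sq9Ctr δ u - z) ∈ sq9Face δ u := by
  rcases ht0.eq_or_lt with rfl | ht0
  · simpa using h
  obtain ⟨⟨h1, h2⟩, ⟨h3, h4⟩⟩ := sq9_segment_strict hδ h ht0 ht1
  exact sq9_mem_face.2 ⟨⟨h1.le, h2.le⟩, ⟨h3.le, h4.le⟩⟩

theorem sq9_segment_not_mem {δ : ℝ} (hδ : 0 < δ) {u v : ℤ × ℤ} (huv : v ≠ u) {z : ℝ × ℝ}
    (h : z ∈ sq9Face δ u) {t : ℝ} (ht0 : 0 < t) (ht1 : t ≤ 1) :
    z + t • (sq9Ctr δ u - z) ∉ sq9Face δ v := by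
  intro h'
  obtain ⟨⟨h1, h2⟩, ⟨h3, h4⟩⟩ := sq9_segment_strict hδ h ht0 ht1
  obtain ⟨⟨k1, k2⟩, ⟨k3, k4⟩⟩ := sq9_mem_face.1 h'
  exact huv (Prod.ext (sq9_slab_unique hδ h1 h2 k1 k2) (sq9_slab_unique hδ h3 h4 k3 k4))

theorem sq9_ctr_not_mem {δ : ℝ} (hδ : 0 < δ) {u v : ℤ × ℤ} (huv : v ≠ u) :
    sq9Ctr δ u ∉ sq9Face δ v := by
  have h := sq9_segment_not_mem hδ huv (sq9_ctr_mem hδ u) one_pos le_rfl
  simpa using h

theorem sq9_isClosed_face (δ : ℝ) (f : ℤ × ℤ) : IsClosed (sq9Face δ f) :=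
  isClosed_Icc.prod isClosed_Icc

theorem sq9_isCompact_face (δ : ℝ) (f : ℤ × ℤ) : IsCompact (sq9Face δ f) :=
  isCompact_Icc.prod isCompact_Icc

theorem sq9_measurableSet_face (δ : ℝ) (f : ℤ × ℤ) : MeasurableSet (sq9Face δ f) :=
  (sq9_isClosed_face δ f).measurableSet

theorem sq9_convex_face (δ : ℝ) (f : ℤ × ℤ) : Convex ℝ (sq9Face δ f) :=
  (convex_Icc _ _).prod (convex_Icc _ _)

/-- two points of a face are at sup-distance at most `δ`. -/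
theorem sq9_dist_le {δ : ℝ} {f : ℤ × ℤ} {z w : ℝ × ℝ} (hz : z ∈ sq9Face δ f)
    (hw : w ∈ sq9Face δ f) : dist z w ≤ δ := by
  obtain ⟨⟨h1, h2⟩, ⟨h3, h4⟩⟩ := sq9_mem_face.1 hz
  obtain ⟨⟨k1, k2⟩, ⟨k3, k4⟩⟩ := sq9_mem_face.1 hw
  rw [Prod.dist_eq, Real.dist_eq, Real.dist_eq]
  apply max_le <;> rw [abs_le] <;> constructor <;> nlinarith

/-- finitely many faces meet a bounded set. -/
theorem sq9_finite_near {δ : ℝ} (hδ : 0 < δ) (z : ℝ × ℝ) (R : ℝ) :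
    {f : ℤ × ℤ | ∃ y ∈ sq9Face δ f, dist y z ≤ R}.Finite := by
  apply ((Set.finite_Icc (⌊(z.1 - R) / δ⌋ - 1) (⌈(z.1 + R) / δ⌉)).prod
    (Set.finite_Icc (⌊(z.2 - R) / δ⌋ - 1) (⌈(z.2 + R) / δ⌉))).subset
  rintro f ⟨y, hy, hd⟩
  obtain ⟨⟨h1, h2⟩, ⟨h3, h4⟩⟩ := sq9_mem_face.1 hy
  rw [Prod.dist_eq, Real.dist_eq, Real.dist_eq] at hd
  have d1 := abs_le.1 ((le_max_left _ _).trans hd)
  have d2 := abs_le.1 ((le_max_right _ _).trans hd)
  have key : ∀ (a : ℤ) (x c : ℝ), δ * a ≤ x → x ≤ δ * (a + 1) → -R ≤ x - c → x - c ≤ R →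
      a ∈ Set.Icc (⌊(c - R) / δ⌋ - 1) (⌈(c + R) / δ⌉) := by
    intro a x c e1 e2 e3 e4
    constructor
    · have : (c - R) / δ ≤ (a : ℝ) + 1 := by
        rw [div_le_iff₀ hδ]; nlinarith
      have h5 : ((⌊(c - R) / δ⌋ : ℤ) : ℝ) ≤ (a : ℝ) + 1 := (Int.floor_le _).trans this
      have h6 : ⌊(c - R) / δ⌋ ≤ a + 1 := by exact_mod_cast h5
      omega
    · have : (a : ℝ) ≤ (c + R) / δ := by
        rw [le_div_iff₀ hδ]; nlinarith
      have h5 : (a : ℝ) ≤ ((⌈(c + R) / δ⌉ : ℤ) : ℝ) := this.trans (Int.le_ceil _)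
      exact_mod_cast h5
  exact ⟨key f.1 y.1 z.1 h1 h2 d1.1 d1.2, key f.2 y.2 z.2 h3 h4 d2.1 d2.2⟩

theorem sq9_locallyFinite {δ : ℝ} (hδ : 0 < δ) : LocallyFinite (sq9Face δ) := by
  intro z
  refine ⟨Metric.ball z 1, Metric.ball_mem_nhds z one_pos, ?_⟩
  apply (sq9_finite_near hδ z 1).subset
  rintro f ⟨y, hy1, hy2⟩
  exact ⟨y, hy1, (Metric.mem_ball.1 hy2).le⟩

/-! ## S1.2 unions of faces, the region -/

/-- union of the faces of a set of lattice points. -/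
def sq9U (δ : ℝ) (S : Set (ℤ × ℤ)) : Set (ℝ × ℝ) := ⋃ u ∈ S, sq9Face δ u

theorem sq9_mem_U {δ : ℝ} {S : Set (ℤ × ℤ)} {z : ℝ × ℝ} :
    z ∈ sq9U δ S ↔ ∃ u ∈ S, z ∈ sq9Face δ u := by
  simp [sq9U]

theorem sq9_isClosed_U {δ : ℝ} (hδ : 0 < δ) (S : Set (ℤ × ℤ)) : IsClosed (sq9U δ S) := by
  have h1 : sq9U δ S = ⋃ u : S, sq9Face δ u := by
    ext z; simp [sq9U]
  rw [h1]
  exact ((sq9_locallyFinite hδ).comp_injective Subtype.val_injective).isClosed_iUnion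
    fun u => sq9_isClosed_face δ u

theorem sq9_U_union_compl {δ : ℝ} (hδ : 0 < δ) (S : Set (ℤ × ℤ)) :
    sq9U δ S ∪ sq9U δ Sᶜ = univ := by
  ext z
  simp only [mem_union, mem_univ, iff_true, sq9_mem_U]
  obtain ⟨u, hu⟩ := sq9_cover hδ z
  by_cases h : u ∈ S
  · exact Or.inl ⟨u, h, hu⟩
  · exact Or.inr ⟨u, h, hu⟩

theorem sq9_U_mono {δ : ℝ} {S T : Set (ℤ × ℤ)} (h : S ⊆ T) : sq9U δ S ⊆ sq9U δ T := by
  intro z hz
  obtain ⟨u, hu, hz⟩ := sq9_mem_U.1 hz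
  exact sq9_mem_U.2 ⟨u, h hu, hz⟩

theorem sq9_U_union (δ : ℝ) (S T : Set (ℤ × ℤ)) : sq9U δ (S ∪ T) = sq9U δ S ∪ sq9U δ T := by
  ext z
  simp only [sq9_mem_U, mem_union]
  constructor
  · rintro ⟨u, hu | hu, hz⟩
    · exact Or.inl ⟨u, hu, hz⟩
    · exact Or.inr ⟨u, hu, hz⟩
  · rintro (⟨u, hu, hz⟩ | ⟨u, hu, hz⟩)
    · exact ⟨u, Or.inl hu, hz⟩
    · exact ⟨u, Or.inr hu, hz⟩

theorem sq9_segment_tendsto (z p : ℝ × ℝ) :
    Tendsto (fun t : ℝ => z + t • (p - z)) (𝓝[>] 0) (𝓝 z) := by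
  have h : Continuous fun t : ℝ => z + t • (p - z) := by fun_prop
  have h1 := (h.tendsto 0).mono_left (nhdsWithin_le_nhds (s := Ioi (0 : ℝ)))
  simpa using h1

/-- `interior (⋃ faces of S) = complement of the other faces`. -/
theorem sq9_interior_U {δ : ℝ} (hδ : 0 < δ) (S : Set (ℤ × ℤ)) :
    interior (sq9U δ S) = (sq9U δ Sᶜ)ᶜ := by
  apply subset_antisymm
  · intro z hz hz'
    obtain ⟨v, hv, hzv⟩ := sq9_mem_U.1 hz'
    have h1 : ∀ᶠ t in 𝓝[>] (0 : ℝ), z + t • (sq9Ctr δ v - z) ∈ interior (sq9U δ S) :=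
      (sq9_segment_tendsto z (sq9Ctr δ v)).eventually (isOpen_interior.mem_nhds hz)
    have h2 : ∀ᶠ t in 𝓝[>] (0 : ℝ), t ∈ Ioc (0 : ℝ) 1 := Ioc_mem_nhdsGT one_pos
    obtain ⟨t, ht1, ht2⟩ := (h1.and h2).exists
    obtain ⟨u, hu, hzu⟩ := sq9_mem_U.1 (interior_subset ht1)
    have huv : u ≠ v := fun h => hv (h ▸ hu)
    exact sq9_segment_not_mem hδ huv hzv ht2.1 ht2.2 hzu
  · apply interior_maximal _ (sq9_isClosed_U hδ Sᶜ).isOpen_compl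
    intro z hz
    have h1 : z ∈ sq9U δ S ∪ sq9U δ Sᶜ := by rw [sq9_U_union_compl hδ]; trivial
    exact h1.resolve_right hz

theorem sq9_closure_interior_U {δ : ℝ} (hδ : 0 < δ) (S : Set (ℤ × ℤ)) :
    closure (interior (sq9U δ S)) = sq9U δ S := by
  apply subset_antisymm
  · exact closure_minimal interior_subset (sq9_isClosed_U hδ S)
  · intro z hz
    obtain ⟨u, hu, hzu⟩ := sq9_mem_U.1 hz
    rw [sq9_interior_U hδ]
    apply mem_closure_of_tendsto (sq9_segment_tendsto z (sq9Ctr δ u))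
    have h2 : ∀ᶠ t in 𝓝[>] (0 : ℝ), t ∈ Ioc (0 : ℝ) 1 := Ioc_mem_nhdsGT one_pos
    filter_upwards [h2] with t ht hz'
    obtain ⟨v, hv, hzv⟩ := sq9_mem_U.1 hz'
    have huv : v ≠ u := fun h => hv (h ▸ hu)
    exact sq9_segment_not_mem hδ huv hzu ht.1 ht.2 hzv

theorem sq9_frontier_interior_U {δ : ℝ} (hδ : 0 < δ) (S : Set (ℤ × ℤ)) :
    frontier (interior (sq9U δ S)) = sq9U δ S ∩ sq9U δ Sᶜ := by
  rw [frontier, sq9_closure_interior_U hδ, interior_interior, sq9_interior_U hδ, sdiff_eq,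
    compl_compl]

theorem sq9_region_eq (δ : ℝ) (F : Finset (ℤ × ℤ)) :
    faceRegionSq δ F = interior (sq9U δ (F : Set (ℤ × ℤ))) := by
  unfold faceRegionSq sq9U sq9Face
  simp only [Finset.mem_coe]

theorem sq9_region_eq_compl {δ : ℝ} (hδ : 0 < δ) (F : Finset (ℤ × ℤ)) :
    faceRegionSq δ F = (sq9U δ (F : Set (ℤ × ℤ))ᶜ)ᶜ := by
  rw [sq9_region_eq, sq9_interior_U hδ]

/-- **membership in the region.** -/
theorem sq9_mem_region_iff {δ : ℝ} (hδ : 0 < δ) (F : Finset (ℤ × ℤ)) (z : ℝ × ℝ) :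
    z ∈ faceRegionSq δ F ↔ ∀ v, z ∈ sq9Face δ v → v ∈ F := by
  rw [sq9_region_eq_compl hδ, mem_compl_iff, sq9_mem_U]
  constructor
  · intro h v hv
    by_contra hc
    exact h ⟨v, hc, hv⟩
  · rintro h ⟨v, hv, hz⟩
    exact hv (h v hz)

theorem sq9_isOpen_region (δ : ℝ) (F : Finset (ℤ × ℤ)) : IsOpen (faceRegionSq δ F) :=
  isOpen_interior

theorem sq9_closure_region {δ : ℝ} (hδ : 0 < δ) (F : Finset (ℤ × ℤ)) :
    closure (faceRegionSq δ F) = sq9U δ (F : Set (ℤ × ℤ)) := by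
  rw [sq9_region_eq, sq9_closure_interior_U hδ]

/-- **the frontier of the region.** -/
theorem sq9_frontier_region {δ : ℝ} (hδ : 0 < δ) (F : Finset (ℤ × ℤ)) :
    frontier (faceRegionSq δ F) = sq9U δ (F : Set (ℤ × ℤ)) ∩ sq9U δ (F : Set (ℤ × ℤ))ᶜ := by
  rw [sq9_region_eq, sq9_frontier_interior_U hδ]

theorem sq9_mem_frontier_iff {δ : ℝ} (hδ : 0 < δ) (F : Finset (ℤ × ℤ)) (z : ℝ × ℝ) :
    z ∈ frontier (faceRegionSq δ F) ↔ ∃ u ∈ F, ∃ v ∉ F, z ∈ sq9Face δ u ∧ z ∈ sq9Face δ v := by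
  rw [sq9_frontier_region hδ, mem_inter_iff, sq9_mem_U, sq9_mem_U]
  constructor
  · rintro ⟨⟨u, hu, hzu⟩, ⟨v, hv, hzv⟩⟩
    exact ⟨u, hu, v, hv, hzu, hzv⟩
  · rintro ⟨u, hu, v, hv, hzu, hzv⟩
    exact ⟨⟨u, hu, hzu⟩, ⟨v, hv, hzv⟩⟩

theorem sq9_ctr_mem_region {δ : ℝ} (hδ : 0 < δ) {F : Finset (ℤ × ℤ)} {u : ℤ × ℤ} (hu : u ∈ F) :
    sq9Ctr δ u ∈ faceRegionSq δ F := by
  rw [sq9_mem_region_iff hδ]
  intro v hv
  by_contra hc
  exact sq9_ctr_not_mem hδ (fun e : v = u => hc (e ▸ hu)) hv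

theorem sq9_ctr_mem_region_iff {δ : ℝ} (hδ : 0 < δ) (F : Finset (ℤ × ℤ)) (u : ℤ × ℤ) :
    sq9Ctr δ u ∈ faceRegionSq δ F ↔ u ∈ F :=
  ⟨fun h => (sq9_mem_region_iff hδ F _).1 h u (sq9_ctr_mem hδ u), sq9_ctr_mem_region hδ⟩

theorem sq9_isCompact_U_finset (δ : ℝ) (F : Finset (ℤ × ℤ)) :
    IsCompact (sq9U δ (F : Set (ℤ × ℤ))) := by
  unfold sq9U
  exact F.finite_toSet.isCompact_biUnion fun f _ => sq9_isCompact_face δ f

theorem sq9_region_bounded (δ : ℝ) (F : Finset (ℤ × ℤ)) :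
    Bornology.IsBounded (faceRegionSq δ F) := by
  rw [sq9_region_eq]
  exact (sq9_isCompact_U_finset δ F).isBounded.subset interior_subset

/-! ## S1.3 corners -/

theorem sq9_slab_corner {δ : ℝ} (hδ : 0 < δ) (a b : ℤ) :
    (δ * (b : ℝ) ≤ δ * a ∧ δ * (a : ℝ) ≤ δ * (b + 1)) ↔ (b = a ∨ b = a - 1) := by
  constructor
  · rintro ⟨h1, h2⟩
    have h3 : (b : ℝ) ≤ a := le_of_mul_le_mul_left h1 hδ
    have h4 : (a : ℝ) ≤ b + 1 := le_of_mul_le_mul_left h2 hδ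
    have h5 : b ≤ a := by exact_mod_cast h3
    have h6 : a ≤ b + 1 := by exact_mod_cast h4
    omega
  · rintro (rfl | rfl)
    · constructor <;> nlinarith
    · push_cast
      constructor <;> nlinarith

/-- the faces through a corner. -/
theorem sq9_pos_mem_face_iff {δ : ℝ} (hδ : 0 < δ) (v f : ℤ × ℤ) :
    sq9Pos δ v ∈ sq9Face δ f ↔ (f.1 = v.1 ∨ f.1 = v.1 - 1) ∧ (f.2 = v.2 ∨ f.2 = v.2 - 1) := by
  rw [sq9_mem_face]
  simp only [sq9Pos]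
  rw [sq9_slab_corner hδ, sq9_slab_corner hδ]

theorem sq9_mem_cornersOf {F : Finset (ℤ × ℤ)} {v : ℤ × ℤ} :
    v ∈ cornersOf F ↔ ∃ f ∈ F, (f.1 = v.1 ∨ f.1 = v.1 - 1) ∧ (f.2 = v.2 ∨ f.2 = v.2 - 1) := by
  unfold cornersOf
  simp only [Finset.mem_biUnion, Finset.mem_insert, Finset.mem_singleton]
  constructor
  · rintro ⟨f, hf, h⟩
    refine ⟨f, hf, ?_⟩
    rcases h with rfl | rfl | rfl | rfl <;> simp
  · rintro ⟨f, hf, h1, h2⟩
    refine ⟨f, hf, ?_⟩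
    rcases h1 with h1 | h1 <;> rcases h2 with h2 | h2
    · exact Or.inl (Prod.ext h1.symm h2.symm)
    · exact Or.inr (Or.inr (Or.inl (Prod.ext h1.symm (by simp only; omega))))
    · exact Or.inr (Or.inl (Prod.ext (by simp only; omega) h2.symm))
    · exact Or.inr (Or.inr (Or.inr (Prod.ext (by simp only; omega) (by simp only; omega))))

theorem sq9_mem_cornersOf_four {F : Finset (ℤ × ℤ)} {v : ℤ × ℤ} :
    v ∈ cornersOf F ↔ v ∈ F ∨ (v.1 - 1, v.2) ∈ F ∨ (v.1, v.2 - 1) ∈ F ∨ (v.1 - 1, v.2 - 1) ∈ F := by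
  rw [sq9_mem_cornersOf]
  constructor
  · rintro ⟨⟨f1, f2⟩, hf, h1, h2⟩
    simp only at h1 h2
    rcases h1 with rfl | rfl <;> rcases h2 with rfl | rfl
    · exact Or.inl hf
    · exact Or.inr (Or.inr (Or.inl hf))
    · exact Or.inr (Or.inl hf)
    · exact Or.inr (Or.inr (Or.inr hf))
  · rintro (h | h | h | h)
    · exact ⟨_, h, Or.inl rfl, Or.inl rfl⟩
    · exact ⟨_, h, Or.inr rfl, Or.inl rfl⟩
    · exact ⟨_, h, Or.inl rfl, Or.inr rfl⟩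
    · exact ⟨_, h, Or.inr rfl, Or.inr rfl⟩

/-- **the corners of `F` are the lattice points of the closed region.** -/
theorem sq9_pos_mem_closure_iff {δ : ℝ} (hδ : 0 < δ) (F : Finset (ℤ × ℤ)) (v : ℤ × ℤ) :
    sq9Pos δ v ∈ closure (faceRegionSq δ F) ↔ v ∈ cornersOf F := by
  rw [sq9_closure_region hδ, sq9_mem_U, sq9_mem_cornersOf]
  simp only [Finset.mem_coe, sq9_pos_mem_face_iff hδ]

/-- **the corners off the polygon are the lattice points of the open region.** -/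
theorem sq9_pos_mem_region_iff {δ : ℝ} (hδ : 0 < δ) (F : Finset (ℤ × ℤ)) (v : ℤ × ℤ) :
    sq9Pos δ v ∈ faceRegionSq δ F ↔ ¬ OnPolygon F v := by
  rw [sq9_mem_region_iff hδ]
  unfold OnPolygon
  rw [not_not]
  simp only [sq9_pos_mem_face_iff hδ]
  constructor
  · intro h
    exact ⟨h _ ⟨Or.inl rfl, Or.inl rfl⟩, h _ ⟨Or.inr rfl, Or.inl rfl⟩, h _ ⟨Or.inl rfl, Or.inr rfl⟩,
      h _ ⟨Or.inr rfl, Or.inr rfl⟩⟩
  · rintro ⟨h1, h2, h3, h4⟩ ⟨f1, f2⟩ ⟨k1, k2⟩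
    simp only at k1 k2
    rcases k1 with rfl | rfl <;> rcases k2 with rfl | rfl
    · exact h1
    · exact h3
    · exact h2
    · exact h4

/-- **the corners on the polygon are the lattice points of the frontier.** -/
theorem sq9_pos_mem_frontier_iff {δ : ℝ} (hδ : 0 < δ) (F : Finset (ℤ × ℤ)) (v : ℤ × ℤ) :
    sq9Pos δ v ∈ frontier (faceRegionSq δ F) ↔ v ∈ cornersOf F ∧ OnPolygon F v := by
  rw [frontier, (sq9_isOpen_region δ F).interior_eq, Set.mem_sdiff, sq9_pos_mem_closure_iff hδ,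
    sq9_pos_mem_region_iff hδ, not_not]

theorem sq9_not_onPolygon_mem_cornersOf {F : Finset (ℤ × ℤ)} {v : ℤ × ℤ} (h : ¬ OnPolygon F v) :
    v ∈ cornersOf F := by
  unfold OnPolygon at h
  rw [not_not] at h
  exact sq9_mem_cornersOf_four.2 (Or.inl h.1)

/-! ## S2.1 no triod in a simple closed curve -/

/-- **No triod in a simple closed curve.**  If, in the open sup-box of radius `δ` about `p`, the range
of an injective continuous map of the circle lies in the cross through `p`, then it cannot contain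
three of the four arms. -/
theorem sq9_no_triod {g : Circle → ℝ × ℝ} (hg : Continuous g) (hi : Function.Injective g)
    (p : ℝ × ℝ) {δ : ℝ} (hδ : 0 < δ)
    (hcross : ∀ z ∈ range g, |z.1 - p.1| < δ → |z.2 - p.2| < δ → z.1 = p.1 ∨ z.2 = p.2)
    (hE : ∀ s : ℝ, 0 ≤ s → s < δ → (p.1 + s, p.2) ∈ range g)
    (hW : ∀ s : ℝ, 0 ≤ s → s < δ → (p.1 - s, p.2) ∈ range g)
    (hN : ∀ s : ℝ, 0 ≤ s → s < δ → (p.1, p.2 + s) ∈ range g) : False := by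
  obtain ⟨t₀, ht₀⟩ := hE 0 le_rfl hδ
  have ht₀' : g t₀ = p := by rw [ht₀]; simp
  obtain ⟨s₀, hs₀⟩ := Circle.exp_surjective t₀
  set h : ℝ → ℝ × ℝ := fun s => g (Circle.exp s) with hh
  have hc : Continuous h := hg.comp Circle.exp.continuous
  have hs₀p : h s₀ = p := by simp only [hh, hs₀, ht₀']
  -- a parameter interval mapped into the box
  have hbox : IsOpen {z : ℝ × ℝ | |z.1 - p.1| < δ ∧ |z.2 - p.2| < δ} := by
    have c1 : Continuous fun z : ℝ × ℝ => |z.1 - p.1| := by fun_prop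
    have c2 : Continuous fun z : ℝ × ℝ => |z.2 - p.2| := by fun_prop
    exact (isOpen_lt c1 continuous_const).inter (isOpen_lt c2 continuous_const)
  have hpre : h ⁻¹' {z : ℝ × ℝ | |z.1 - p.1| < δ ∧ |z.2 - p.2| < δ} ∈ 𝓝 s₀ := by
    apply (hbox.preimage hc).mem_nhds
    show |(h s₀).1 - p.1| < δ ∧ |(h s₀).2 - p.2| < δ
    rw [hs₀p]; simp [hδ]
  obtain ⟨ε₀, hε₀, hball⟩ := Metric.mem_nhds_iff.1 hpre
  set ε : ℝ := min ε₀ Real.pi with hε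
  have hεpos : 0 < ε := lt_min hε₀ Real.pi_pos
  have hεpi : ε ≤ Real.pi := min_le_right _ _
  have hin : ∀ s, |s - s₀| < ε → |(h s).1 - p.1| < δ ∧ |(h s).2 - p.2| < δ := by
    intro s hs
    exact hball (by rw [Metric.mem_ball, Real.dist_eq]; exact hs.trans_le (min_le_left _ _))
  -- `h s = p` only at `s₀` modulo the period
  have hne : ∀ s, 0 < |s - s₀| → |s - s₀| < 2 * Real.pi → h s ≠ p := by
    intro s h1 h2 h3
    have h4 : Circle.exp s = Circle.exp s₀ := hi (by rw [hs₀, ht₀']; exact h3)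
    obtain ⟨m, hm⟩ := Circle.exp_eq_exp.1 h4
    have h5 : s - s₀ = m * (2 * Real.pi) := by linarith
    rw [h5, abs_mul, abs_of_pos Real.two_pi_pos] at h1 h2
    have h6 : |(m : ℝ)| < 1 := by
      by_contra hcon
      push Not at hcon
      nlinarith [Real.two_pi_pos]
    have h7 : |m| < 1 := by exact_mod_cast h6
    have h8 : m = 0 := Int.abs_lt_one_iff.1 h7
    rw [h8] at h1
    simp at h1
  -- the far part of the curve stays away from `p`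
  have hCc : IsCompact (h '' Icc (s₀ + ε / 2) (s₀ + 2 * Real.pi - ε / 2)) :=
    isCompact_Icc.image hc
  have hpC : p ∉ h '' Icc (s₀ + ε / 2) (s₀ + 2 * Real.pi - ε / 2) := by
    rintro ⟨s, ⟨h1, h2⟩, h3⟩
    refine hne s ?_ ?_ h3
    · rw [abs_of_pos (by linarith)]; linarith
    · rw [abs_of_pos (by linarith)]; linarith
  obtain ⟨r, hr, hrball⟩ := Metric.isOpen_iff.1 hCc.isClosed.isOpen_compl p hpC
  have hnear : ∀ z ∈ range g, dist z p < r → z ≠ p → ∃ s, h s = z ∧ 0 < |s - s₀| ∧ |s - s₀| < ε := by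
    rintro z ⟨t, rfl⟩ hd hzp
    obtain ⟨s', hs'⟩ := Circle.exp_surjective t
    obtain ⟨s, ⟨h1, h2⟩, h3⟩ := Circle.periodic_exp.exists_mem_Ico Real.two_pi_pos s' (s₀ - ε / 2)
    have hst : h s = g t := by simp only [hh, ← h3, hs']
    have h4 : s < s₀ + ε / 2 := by
      by_contra hcon
      push Not at hcon
      exact hrball (Metric.mem_ball.2 hd) ⟨s, ⟨hcon, by linarith⟩, hst⟩
    refine ⟨s, hst, ?_, ?_⟩
    · rw [abs_pos, sub_ne_zero]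
      rintro rfl
      exact hzp (hst.symm.trans hs₀p)
    · rw [abs_lt]; constructor <;> linarith
  -- the sign functions
  have key : ∀ (φ : ℝ → ℝ), Continuous φ →
      (∀ s, 0 < |s - s₀| → |s - s₀| < ε → φ s ≠ 0) →
      ∀ a b, 0 < |a - s₀| → |a - s₀| < ε → 0 < |b - s₀| → |b - s₀| < ε →
        ((s₀ < a ∧ s₀ < b) ∨ (a < s₀ ∧ b < s₀)) → 0 < φ a → φ b < 0 → False := by
    intro φ hφ hφ0 a b ha1 ha2 hb1 hb2 hside hpa hpb
    have h0 : (0 : ℝ) ∈ uIcc (φ a) (φ b) := by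
      rw [mem_uIcc]; right; exact ⟨hpb.le, hpa.le⟩
    obtain ⟨c, hcm, hc0⟩ := intermediate_value_uIcc hφ.continuousOn h0
    rw [abs_lt] at ha2 hb2
    rw [mem_uIcc] at hcm
    refine hφ0 c ?_ ?_ hc0
    · rw [abs_pos, sub_ne_zero]
      rcases hside with ⟨h1, h2⟩ | ⟨h1, h2⟩ <;> rcases hcm with ⟨h3, h4⟩ | ⟨h3, h4⟩ <;>
        first | exact (by linarith : s₀ < c).ne' | exact (by linarith : c < s₀).ne
    · rw [abs_lt]
      rcases hcm with ⟨h3, h4⟩ | ⟨h3, h4⟩ <;> constructor <;> linarith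
  have hεtwo : ε < 2 * Real.pi := by linarith [Real.pi_pos]
  have hoff : ∀ s, 0 < |s - s₀| → |s - s₀| < ε →
      ((h s).1 = p.1 ∧ (h s).2 ≠ p.2) ∨ ((h s).2 = p.2 ∧ (h s).1 ≠ p.1) := by
    intro s h1 h2
    have h3 := hne s h1 (h2.trans hεtwo)
    obtain ⟨h4, h5⟩ := hin s h2
    rcases hcross (h s) ⟨_, rfl⟩ h4 h5 with h6 | h6
    · exact Or.inl ⟨h6, fun h7 => h3 (Prod.ext h6 h7)⟩
    · exact Or.inr ⟨h6, fun h7 => h3 (Prod.ext h7 h6)⟩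
  have keyE := key (fun s => ((h s).1 - p.1) - |(h s).2 - p.2|) (by fun_prop) (by
    intro s h1 h2 h3
    rcases hoff s h1 h2 with ⟨h4, h5⟩ | ⟨h4, h5⟩
    · rw [h4, sub_self, zero_sub, neg_eq_zero, abs_eq_zero, sub_eq_zero] at h3
      exact h5 h3
    · rw [h4, sub_self, abs_zero, sub_zero, sub_eq_zero] at h3
      exact h5 h3)
  have keyW := key (fun s => (p.1 - (h s).1) - |(h s).2 - p.2|) (by fun_prop) (by
    intro s h1 h2 h3
    rcases hoff s h1 h2 with ⟨h4, h5⟩ | ⟨h4, h5⟩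
    · rw [h4, sub_self, zero_sub, neg_eq_zero, abs_eq_zero, sub_eq_zero] at h3
      exact h5 h3
    · rw [h4, sub_self, abs_zero, sub_zero, sub_eq_zero] at h3
      exact h5 h3.symm)
  -- the three test points
  set ρ : ℝ := min r δ / 2 with hρ
  have hρpos : 0 < ρ := by rw [hρ]; exact half_pos (lt_min hr hδ)
  have hρr : ρ < r := by
    rw [hρ]; exact (half_lt_self (lt_min hr hδ)).trans_le (min_le_left _ _)
  have hρδ : ρ < δ := by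
    rw [hρ]; exact (half_lt_self (lt_min hr hδ)).trans_le (min_le_right _ _)
  obtain ⟨se, hse, he1, he2⟩ := hnear (p.1 + ρ, p.2) (hE ρ hρpos.le hρδ)
    (by rw [Prod.dist_eq, Real.dist_eq, Real.dist_eq]; simp [abs_of_pos hρpos, hρr, hr])
    (by intro hcon; have := congrArg Prod.fst hcon; simp at this; linarith)
  obtain ⟨sw, hsw, hw1, hw2⟩ := hnear (p.1 - ρ, p.2) (hW ρ hρpos.le hρδ)
    (by rw [Prod.dist_eq, Real.dist_eq, Real.dist_eq]; simp [abs_of_pos hρpos, hρr, hr])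
    (by intro hcon; have := congrArg Prod.fst hcon; simp at this; linarith)
  obtain ⟨sn, hsn, hn1, hn2⟩ := hnear (p.1, p.2 + ρ) (hN ρ hρpos.le hρδ)
    (by rw [Prod.dist_eq, Real.dist_eq, Real.dist_eq]; simp [abs_of_pos hρpos, hρr, hr])
    (by intro hcon; have := congrArg Prod.snd hcon; simp at this; linarith)
  have vEe : 0 < ((h se).1 - p.1) - |(h se).2 - p.2| := by rw [hse]; simp [hρpos]
  have vEw : ((h sw).1 - p.1) - |(h sw).2 - p.2| < 0 := by rw [hsw]; simp [hρpos]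
  have vEn : ((h sn).1 - p.1) - |(h sn).2 - p.2| < 0 := by rw [hsn]; simp [hρpos.ne']
  have vWw : 0 < (p.1 - (h sw).1) - |(h sw).2 - p.2| := by rw [hsw]; simp [hρpos]
  have vWn : (p.1 - (h sn).1) - |(h sn).2 - p.2| < 0 := by rw [hsn]; simp [hρpos.ne']
  have de : se < s₀ ∨ s₀ < se := lt_or_gt_of_ne (sub_ne_zero.1 (abs_pos.1 he1))
  have dw : sw < s₀ ∨ s₀ < sw := lt_or_gt_of_ne (sub_ne_zero.1 (abs_pos.1 hw1))
  have dn : sn < s₀ ∨ s₀ < sn := lt_or_gt_of_ne (sub_ne_zero.1 (abs_pos.1 hn1))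
  rcases de with de | de <;> rcases dw with dw | dw <;> rcases dn with dn | dn
  · exact keyE se sw he1 he2 hw1 hw2 (Or.inr ⟨de, dw⟩) vEe vEw
  · exact keyE se sw he1 he2 hw1 hw2 (Or.inr ⟨de, dw⟩) vEe vEw
  · exact keyE se sn he1 he2 hn1 hn2 (Or.inr ⟨de, dn⟩) vEe vEn
  · exact keyW sw sn hw1 hw2 hn1 hn2 (Or.inl ⟨dw, dn⟩) vWw vWn
  · exact keyW sw sn hw1 hw2 hn1 hn2 (Or.inr ⟨dw, dn⟩) vWw vWn
  · exact keyE se sn he1 he2 hn1 hn2 (Or.inl ⟨de, dn⟩) vEe vEn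
  · exact keyE se sw he1 he2 hw1 hw2 (Or.inl ⟨de, dw⟩) vEe vEw
  · exact keyE se sw he1 he2 hw1 hw2 (Or.inl ⟨de, dw⟩) vEe vEw

/-! ## S2.2 no pinch point -/

/-- the four faces at the corner `v` are alternately in and out of `P`. -/
def sq9Pinch (P : Set (ℤ × ℤ)) (v : ℤ × ℤ) : Prop :=
  (v ∈ P ∧ (v.1 - 1, v.2 - 1) ∈ P ∧ (v.1 - 1, v.2) ∉ P ∧ (v.1, v.2 - 1) ∉ P) ∨
  (v ∉ P ∧ (v.1 - 1, v.2 - 1) ∉ P ∧ (v.1 - 1, v.2) ∈ P ∧ (v.1, v.2 - 1) ∈ P)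

theorem sq9_pinch_compl (P : Set (ℤ × ℤ)) (v : ℤ × ℤ) : sq9Pinch Pᶜ v ↔ sq9Pinch P v := by
  unfold sq9Pinch
  simp only [mem_compl_iff, not_not]
  tauto

theorem sq9_lattice_coord {δ : ℝ} (hδ : 0 < δ) {k m : ℤ} (h : |δ * (k : ℝ) - δ * m| < δ) :
    k = m := by
  rw [← mul_sub, abs_mul, abs_of_pos hδ] at h
  have h1 : |(k : ℝ) - m| < 1 := by
    by_contra hc
    push Not at hc
    nlinarith
  have h2 : |k - m| < 1 := by exact_mod_cast h1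
  have h3 := Int.abs_lt_one_iff.1 h2
  omega

/-- a point common to two different faces has a lattice coordinate. -/
theorem sq9_common_coord {δ : ℝ} (hδ : 0 < δ) {a b : ℤ × ℤ} (hab : a ≠ b) {z : ℝ × ℝ}
    (ha : z ∈ sq9Face δ a) (hb : z ∈ sq9Face δ b) :
    (∃ k : ℤ, z.1 = δ * k) ∨ (∃ k : ℤ, z.2 = δ * k) := by
  obtain ⟨⟨h1, h2⟩, ⟨h3, h4⟩⟩ := sq9_mem_face.1 ha
  obtain ⟨⟨k1, k2⟩, ⟨k3, k4⟩⟩ := sq9_mem_face.1 hb
  rcases sq9_slab_near hδ h1 h2 k1 k2 with e1 | ⟨-, e1⟩ | ⟨-, e1⟩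
  · rcases sq9_slab_near hδ h3 h4 k3 k4 with e2 | ⟨-, e2⟩ | ⟨-, e2⟩
    · exact absurd (Prod.ext e1.symm e2.symm) hab
    · exact Or.inr ⟨a.2 + 1, by rw [e2]; push_cast; ring⟩
    · exact Or.inr ⟨a.2, e2⟩
  · exact Or.inl ⟨a.1 + 1, by rw [e1]; push_cast; ring⟩
  · exact Or.inl ⟨a.1, e1⟩

/-- **No pinch point**: if the common boundary of the faces of `P` and of the other faces is a
simple closed curve, no corner has its four faces alternately in and out of `P`. -/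
theorem sq9_no_pinch {δ : ℝ} (hδ : 0 < δ) {P : Set (ℤ × ℤ)} {g : Circle → ℝ × ℝ}
    (hg : Continuous g) (hi : Function.Injective g) (hr : range g = sq9U δ P ∩ sq9U δ Pᶜ)
    (v : ℤ × ℤ) : ¬ sq9Pinch P v := by
  intro hp
  have two : ∀ (a b : ℤ × ℤ) (z : ℝ × ℝ), ((a ∈ P ∧ b ∉ P) ∨ (a ∉ P ∧ b ∈ P)) → z ∈ sq9Face δ a →
      z ∈ sq9Face δ b → z ∈ range g := by
    intro a b z hab ha hb
    rw [hr]
    rcases hab with ⟨h1, h2⟩ | ⟨h1, h2⟩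
    · exact ⟨sq9_mem_U.2 ⟨a, h1, ha⟩, sq9_mem_U.2 ⟨b, h2, hb⟩⟩
    · exact ⟨sq9_mem_U.2 ⟨b, h2, hb⟩, sq9_mem_U.2 ⟨a, h1, ha⟩⟩
  refine sq9_no_triod hg hi (sq9Pos δ v) hδ ?_ ?_ ?_ ?_
  · intro z hz h1 h2
    rw [hr] at hz
    obtain ⟨a, ha, hza⟩ := sq9_mem_U.1 hz.1
    obtain ⟨b, hb, hzb⟩ := sq9_mem_U.1 hz.2
    have hab : a ≠ b := fun e => hb (e ▸ ha)
    simp only [sq9Pos] at h1 h2 ⊢
    rcases sq9_common_coord hδ hab hza hzb with ⟨k, hk⟩ | ⟨k, hk⟩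
    · left
      rw [hk] at h1 ⊢
      rw [sq9_lattice_coord hδ h1]
    · right
      rw [hk] at h2 ⊢
      rw [sq9_lattice_coord hδ h2]
  · intro s hs0 hs1
    refine two v (v.1, v.2 - 1) _ (by rcases hp with h | h <;> tauto) ?_ ?_
    · rw [sq9_mem_face]; simp only [sq9Pos]
      refine ⟨⟨?_, ?_⟩, ⟨?_, ?_⟩⟩ <;> nlinarith
    · rw [sq9_mem_face]; simp only [sq9Pos]; push_cast
      refine ⟨⟨?_, ?_⟩, ⟨?_, ?_⟩⟩ <;> nlinarith
  · intro s hs0 hs1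
    refine two (v.1 - 1, v.2) (v.1 - 1, v.2 - 1) _ (by rcases hp with h | h <;> tauto) ?_ ?_
    · rw [sq9_mem_face]; simp only [sq9Pos]; push_cast
      refine ⟨⟨?_, ?_⟩, ⟨?_, ?_⟩⟩ <;> nlinarith
    · rw [sq9_mem_face]; simp only [sq9Pos]; push_cast
      refine ⟨⟨?_, ?_⟩, ⟨?_, ?_⟩⟩ <;> nlinarith
  · intro s hs0 hs1
    refine two v (v.1 - 1, v.2) _ (by rcases hp with h | h <;> tauto) ?_ ?_
    · rw [sq9_mem_face]; simp only [sq9Pos]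
      refine ⟨⟨?_, ?_⟩, ⟨?_, ?_⟩⟩ <;> nlinarith
    · rw [sq9_mem_face]; simp only [sq9Pos]; push_cast
      refine ⟨⟨?_, ?_⟩, ⟨?_, ?_⟩⟩ <;> nlinarith

/-! ## S2.3 nearest neighbour connectivity of both sides -/

/-- nearest neighbour adjacency of faces (a common edge). -/
def sq9Adj (a b : ℤ × ℤ) : Prop :=
  (b.1 = a.1 ∧ (b.2 = a.2 + 1 ∨ b.2 = a.2 - 1)) ∨ (b.2 = a.2 ∧ (b.1 = a.1 + 1 ∨ b.1 = a.1 - 1))

theorem sq9_adj_symm {a b : ℤ × ℤ} (h : sq9Adj a b) : sq9Adj b a := by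
  unfold sq9Adj at *
  omega

theorem sq9_adj_ne {a b : ℤ × ℤ} (h : sq9Adj a b) : a ≠ b := by
  rintro rfl
  unfold sq9Adj at h
  omega

/-- the midpoint of the common edge of two adjacent faces. -/
noncomputable def sq9Mid (δ : ℝ) (a b : ℤ × ℤ) : ℝ × ℝ :=
  (δ * (((a.1 : ℝ) + b.1 + 1) / 2), δ * (((a.2 : ℝ) + b.2 + 1) / 2))

theorem sq9_mid_mem_left {δ : ℝ} (hδ : 0 < δ) {a b : ℤ × ℤ} (h : sq9Adj a b) :
    sq9Mid δ a b ∈ sq9Face δ a := by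
  rw [sq9_mem_face]
  simp only [sq9Mid]
  rcases h with ⟨h1, h2 | h2⟩ | ⟨h1, h2 | h2⟩ <;> rw [h1, h2] <;> push_cast <;>
    refine ⟨⟨?_, ?_⟩, ⟨?_, ?_⟩⟩ <;> nlinarith

theorem sq9_mid_comm (δ : ℝ) (a b : ℤ × ℤ) : sq9Mid δ a b = sq9Mid δ b a := by
  simp only [sq9Mid]
  refine Prod.ext ?_ ?_ <;> simp only <;> ring

theorem sq9_mid_mem_right {δ : ℝ} (hδ : 0 < δ) {a b : ℤ × ℤ} (h : sq9Adj a b) :
    sq9Mid δ a b ∈ sq9Face δ b := by
  rw [sq9_mid_comm]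
  exact sq9_mid_mem_left hδ (sq9_adj_symm h)

/-- the midpoint of an edge lies in no third face. -/
theorem sq9_mid_not_mem {δ : ℝ} (hδ : 0 < δ) {a b w : ℤ × ℤ} (h : sq9Adj a b) (ha : w ≠ a)
    (hb : w ≠ b) : sq9Mid δ a b ∉ sq9Face δ w := by
  intro hw
  obtain ⟨⟨k1, k2⟩, ⟨k3, k4⟩⟩ := sq9_mem_face.1 hw
  simp only [sq9Mid] at k1 k2 k3 k4
  have c1 : (w.1 : ℝ) ≤ ((a.1 : ℝ) + b.1 + 1) / 2 := le_of_mul_le_mul_left k1 hδ
  have c2 : ((a.1 : ℝ) + b.1 + 1) / 2 ≤ (w.1 : ℝ) + 1 := le_of_mul_le_mul_left k2 hδ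
  have c3 : (w.2 : ℝ) ≤ ((a.2 : ℝ) + b.2 + 1) / 2 := le_of_mul_le_mul_left k3 hδ
  have c4 : ((a.2 : ℝ) + b.2 + 1) / 2 ≤ (w.2 : ℝ) + 1 := le_of_mul_le_mul_left k4 hδ
  have d1 : 2 * w.1 ≤ a.1 + b.1 + 1 := by
    have : (2 : ℝ) * w.1 ≤ (a.1 : ℝ) + b.1 + 1 := by linarith
    exact_mod_cast this
  have d2 : a.1 + b.1 + 1 ≤ 2 * w.1 + 2 := by
    have : (a.1 : ℝ) + b.1 + 1 ≤ 2 * (w.1 : ℝ) + 2 := by linarith
    exact_mod_cast this
  have d3 : 2 * w.2 ≤ a.2 + b.2 + 1 := by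
    have : (2 : ℝ) * w.2 ≤ (a.2 : ℝ) + b.2 + 1 := by linarith
    exact_mod_cast this
  have d4 : a.2 + b.2 + 1 ≤ 2 * w.2 + 2 := by
    have : (a.2 : ℝ) + b.2 + 1 ≤ 2 * (w.2 : ℝ) + 2 := by linarith
    exact_mod_cast this
  have e : (w.1 = a.1 ∧ w.2 = a.2) ∨ (w.1 = b.1 ∧ w.2 = b.2) := by
    unfold sq9Adj at h
    omega
  rcases e with ⟨e1, e2⟩ | ⟨e1, e2⟩
  · exact ha (Prod.ext e1 e2)
  · exact hb (Prod.ext e1 e2)

theorem sq9_mid_mem_region {δ : ℝ} (hδ : 0 < δ) {F : Finset (ℤ × ℤ)} {a b : ℤ × ℤ} (ha : a ∈ F)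
    (hb : b ∈ F) (h : sq9Adj a b) : sq9Mid δ a b ∈ faceRegionSq δ F := by
  rw [sq9_mem_region_iff hδ]
  intro w hw
  by_contra hc
  exact sq9_mid_not_mem hδ h (fun e : w = a => hc (e ▸ ha)) (fun e : w = b => hc (e ▸ hb)) hw

theorem sq9_mid_mem_frontier {δ : ℝ} (hδ : 0 < δ) {F : Finset (ℤ × ℤ)} {a b : ℤ × ℤ} (ha : a ∈ F)
    (hb : b ∉ F) (h : sq9Adj a b) : sq9Mid δ a b ∈ frontier (faceRegionSq δ F) :=
  (sq9_mem_frontier_iff hδ F _).2 ⟨a, ha, b, hb, sq9_mid_mem_left hδ h, sq9_mid_mem_right hδ h⟩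

/-- the square lattice is connected. -/
theorem sq9_lattice_conn {S : Set (ℤ × ℤ)} (hne : S.Nonempty)
    (hcl : ∀ a ∈ S, ∀ b, sq9Adj a b → b ∈ S) : S = univ := by
  obtain ⟨a, ha⟩ := hne
  have h1 : ∀ m : ℤ, (a.1 + m, a.2) ∈ S := by
    intro m
    induction m using Int.induction_on with
    | zero => simpa using ha
    | succ k ih =>
      refine hcl _ ih _ (Or.inr ⟨rfl, Or.inl ?_⟩)
      simp only; ring
    | pred k ih =>
      refine hcl _ ih _ (Or.inr ⟨rfl, Or.inr ?_⟩)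
      simp only; ring
  have h2 : ∀ m n : ℤ, (a.1 + m, a.2 + n) ∈ S := by
    intro m n
    induction n using Int.induction_on with
    | zero => simpa using h1 m
    | succ k ih =>
      refine hcl _ ih _ (Or.inl ⟨rfl, Or.inl ?_⟩)
      simp only; ring
    | pred k ih =>
      refine hcl _ ih _ (Or.inl ⟨rfl, Or.inr ?_⟩)
      simp only; ring
  ext b
  simp only [mem_univ, iff_true]
  have := h2 (b.1 - a.1) (b.2 - a.2)
  simpa using this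

theorem sq9_exists_boundary_edge {S : Set (ℤ × ℤ)} (hne : S.Nonempty) (hne' : Sᶜ.Nonempty) :
    ∃ a ∈ S, ∃ b ∉ S, sq9Adj a b := by
  by_contra hc
  push Not at hc
  have h1 := sq9_lattice_conn hne (fun a ha b hab => by
    by_contra hb
    exact hc a ha b hb hab)
  rw [h1] at hne'
  simp at hne'

/-- **Key topological step.**  Connected common boundary + no pinch point ⟹ `P` is connected for the
nearest neighbour adjacency. -/
theorem sq9_no_split {δ : ℝ} (hδ : 0 < δ) {P : Set (ℤ × ℤ)}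
    (hconn : IsPreconnected (sq9U δ P ∩ sq9U δ Pᶜ)) (hpinch : ∀ v, ¬ sq9Pinch P v)
    {S : Set (ℤ × ℤ)} (hS : S ⊆ P) (hne : S.Nonempty)
    (hcl : ∀ a ∈ S, ∀ b ∈ P, sq9Adj a b → b ∈ S) : S = P := by
  by_contra hSP
  have hT : (P \ S).Nonempty := by
    by_contra hc
    rw [Set.not_nonempty_iff_eq_empty, Set.sdiff_eq_empty] at hc
    exact hSP (subset_antisymm hS hc)
  have hclT : ∀ a ∈ P \ S, ∀ b ∈ P, sq9Adj a b → b ∈ P \ S := by
    intro a ha b hb hab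
    exact ⟨hb, fun hbS => ha.2 (hcl b hbS a ha.1 (sq9_adj_symm hab))⟩
  have touch : ∀ R : Set (ℤ × ℤ), R ⊆ P → R.Nonempty → Rᶜ.Nonempty →
      (∀ a ∈ R, ∀ b ∈ P, sq9Adj a b → b ∈ R) →
      ((sq9U δ P ∩ sq9U δ Pᶜ) ∩ sq9U δ R).Nonempty := by
    intro R hR hRne hRc hRcl
    obtain ⟨a, ha, b, hb, hab⟩ := sq9_exists_boundary_edge hRne hRc
    have hbP : b ∉ P := fun h => hb (hRcl a ha b h hab)
    exact ⟨sq9Mid δ a b, ⟨sq9_mem_U.2 ⟨a, hR ha, sq9_mid_mem_left hδ hab⟩,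
      sq9_mem_U.2 ⟨b, hbP, sq9_mid_mem_right hδ hab⟩⟩, sq9_mem_U.2 ⟨a, ha, sq9_mid_mem_left hδ hab⟩⟩
  have t1 := touch S hS hne (hT.mono fun x hx => hx.2) hcl
  have t2 := touch (P \ S) Set.sdiff_subset hT (hne.mono fun x hx h => h.2 hx) hclT
  have hcov : sq9U δ P ∩ sq9U δ Pᶜ ⊆ sq9U δ S ∪ sq9U δ (P \ S) := by
    rw [← sq9_U_union, Set.union_sdiff_cancel hS]
    exact inter_subset_left
  obtain ⟨z, -, hz1, hz2⟩ := (isPreconnected_closed_iff.1 hconn) _ _ (sq9_isClosed_U hδ S)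
    (sq9_isClosed_U hδ (P \ S)) hcov t1 t2
  obtain ⟨a, ha, hza⟩ := sq9_mem_U.1 hz1
  obtain ⟨b, hb, hzb⟩ := sq9_mem_U.1 hz2
  obtain ⟨⟨h1, h2⟩, ⟨h3, h4⟩⟩ := sq9_mem_face.1 hza
  obtain ⟨⟨k1, k2⟩, ⟨k3, k4⟩⟩ := sq9_mem_face.1 hzb
  have e1 : b.1 = a.1 ∨ b.1 = a.1 + 1 ∨ b.1 = a.1 - 1 := by
    rcases sq9_slab_near hδ h1 h2 k1 k2 with e | ⟨e, -⟩ | ⟨e, -⟩ <;> tauto
  have e2 : b.2 = a.2 ∨ b.2 = a.2 + 1 ∨ b.2 = a.2 - 1 := by
    rcases sq9_slab_near hδ h3 h4 k3 k4 with e | ⟨e, -⟩ | ⟨e, -⟩ <;> tauto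
  -- the two other faces at the common corner in the diagonal case
  have diag : b.1 ≠ a.1 → b.2 ≠ a.2 → (a.1, b.2) ∉ P ∧ (b.1, a.2) ∉ P := by
    intro n1 n2
    constructor
    · intro hc
      have hcS : (a.1, b.2) ∈ S := hcl a ha _ hc (Or.inl ⟨rfl, by simp only; omega⟩)
      exact hb.2 (hcl _ hcS b hb.1 (Or.inr ⟨rfl, by simp only; omega⟩))
    · intro hc
      have hcS : (b.1, a.2) ∈ S := hcl a ha _ hc (Or.inr ⟨rfl, by simp only; omega⟩)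
      exact hb.2 (hcl _ hcS b hb.1 (Or.inl ⟨rfl, by simp only; omega⟩))
  have haP : (a.1, a.2) ∈ P := hS ha
  have hbP : (b.1, b.2) ∈ P := hb.1
  rcases e1 with e1 | e1 | e1 <;> rcases e2 with e2 | e2 | e2
  · exact hb.2 ((Prod.ext e1 e2 : b = a) ▸ ha)
  · exact hb.2 (hcl a ha b hb.1 (Or.inl ⟨e1, Or.inl e2⟩))
  · exact hb.2 (hcl a ha b hb.1 (Or.inl ⟨e1, Or.inr e2⟩))
  · exact hb.2 (hcl a ha b hb.1 (Or.inr ⟨e2, Or.inl e1⟩))
  · obtain ⟨d1, d2⟩ := diag (by omega) (by omega)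
    refine hpinch (b.1, b.2) (Or.inl ⟨hbP, ?_, ?_, ?_⟩)
    · simp only [e1, e2, add_sub_cancel_right]; exact haP
    · simp only [e1, add_sub_cancel_right]; exact d1
    · simp only [e2, add_sub_cancel_right]; exact d2
  · obtain ⟨d1, d2⟩ := diag (by omega) (by omega)
    refine hpinch (b.1, a.2) (Or.inr ⟨d2, ?_, ?_, ?_⟩)
    · simp only [e1, add_sub_cancel_right]; rw [← e2]; exact d1
    · simp only [e1, add_sub_cancel_right]; exact haP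
    · simp only; rw [← e2]; exact hbP
  · exact hb.2 (hcl a ha b hb.1 (Or.inr ⟨e2, Or.inr e1⟩))
  · obtain ⟨d1, d2⟩ := diag (by omega) (by omega)
    refine hpinch (a.1, b.2) (Or.inr ⟨d1, ?_, ?_, ?_⟩)
    · simp only [e2, add_sub_cancel_right]; rw [← e1]; exact d2
    · simp only; rw [← e1]; exact hbP
    · simp only [e2, add_sub_cancel_right]; exact haP
  · obtain ⟨d1, d2⟩ := diag (by omega) (by omega)
    refine hpinch (a.1, a.2) (Or.inl ⟨haP, ?_, ?_, ?_⟩)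
    · simp only; rw [← e1, ← e2]; exact hbP
    · simp only; rw [← e1]; exact d2
    · simp only; rw [← e2]; exact d1

theorem sq9_reach_of_no_split {P : Set (ℤ × ℤ)}
    (h : ∀ S : Set (ℤ × ℤ), S ⊆ P → S.Nonempty → (∀ a ∈ S, ∀ b ∈ P, sq9Adj a b → b ∈ S) → S = P)
    {u v : ℤ × ℤ} (hu : u ∈ P) (hv : v ∈ P) :
    Relation.ReflTransGen (fun a b => sq9Adj a b ∧ b ∈ P) u v := by
  have h1 := h {w | w ∈ P ∧ Relation.ReflTransGen (fun a b => sq9Adj a b ∧ b ∈ P) u w}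
    (fun w hw => hw.1) ⟨u, hu, Relation.ReflTransGen.refl⟩
    (fun a ha b hb hab => ⟨hb, ha.2.tail ⟨hab, hb⟩⟩)
  have h2 : v ∈ {w | w ∈ P ∧ Relation.ReflTransGen (fun a b => sq9Adj a b ∧ b ∈ P) u w} := by
    rw [h1]; exact hv
  exact h2.2

/-! ## S2.4 the approximating regions of `IsAdmissibleApprox` -/

theorem sq9_approx_pos {D : Set (ℝ × ℝ)} {δ : ℕ → ℝ} {F : ℕ → Finset (ℤ × ℤ)}
    (h : IsAdmissibleApprox D δ F) (n : ℕ) : 0 < δ n := h.1 n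

/-- the Jordan curve of the `n`-th region. -/
theorem sq9_approx_curve {D : Set (ℝ × ℝ)} {δ : ℕ → ℝ} {F : ℕ → Finset (ℤ × ℤ)}
    (h : IsAdmissibleApprox D δ F) (n : ℕ) : ∃ g : Circle → ℝ × ℝ, Continuous g ∧
      Function.Injective g ∧ range g = sq9U (δ n) (F n : Set (ℤ × ℤ)) ∩ sq9U (δ n) (F n : Set (ℤ × ℤ))ᶜ := by
  obtain ⟨h0, -, -, γ, γs, -, -, -, h1, -⟩ := h
  exact ⟨γs n, (h1 n).1, (h1 n).2.1, by rw [(h1 n).2.2, sq9_frontier_region (h0 n)]⟩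

theorem sq9_approx_no_pinch {D : Set (ℝ × ℝ)} {δ : ℕ → ℝ} {F : ℕ → Finset (ℤ × ℤ)}
    (h : IsAdmissibleApprox D δ F) (n : ℕ) (v : ℤ × ℤ) : ¬ sq9Pinch (F n : Set (ℤ × ℤ)) v := by
  obtain ⟨g, h1, h2, h3⟩ := sq9_approx_curve h n
  exact sq9_no_pinch (h.1 n) h1 h2 h3 v

theorem sq9_approx_frontier_preconnected {D : Set (ℝ × ℝ)} {δ : ℕ → ℝ} {F : ℕ → Finset (ℤ × ℤ)}
    (h : IsAdmissibleApprox D δ F) (n : ℕ) :
    IsPreconnected (sq9U (δ n) (F n : Set (ℤ × ℤ)) ∩ sq9U (δ n) (F n : Set (ℤ × ℤ))ᶜ) := by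
  obtain ⟨g, h1, -, h3⟩ := sq9_approx_curve h n
  rw [← h3]
  exact isPreconnected_range h1

/-- **`F n` is connected** (split form). -/
theorem sq9_F_no_split {D : Set (ℝ × ℝ)} {δ : ℕ → ℝ} {F : ℕ → Finset (ℤ × ℤ)}
    (h : IsAdmissibleApprox D δ F) (n : ℕ) {S : Set (ℤ × ℤ)} (hS : S ⊆ (F n : Set (ℤ × ℤ)))
    (hne : S.Nonempty) (hcl : ∀ a ∈ S, ∀ b ∈ F n, sq9Adj a b → b ∈ S) :
    S = (F n : Set (ℤ × ℤ)) :=
  sq9_no_split (h.1 n) (sq9_approx_frontier_preconnected h n) (sq9_approx_no_pinch h n) hS hne hcl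

/-- **the complement of `F n` is connected** (split form): no holes. -/
theorem sq9_compl_no_split {D : Set (ℝ × ℝ)} {δ : ℕ → ℝ} {F : ℕ → Finset (ℤ × ℤ)}
    (h : IsAdmissibleApprox D δ F) (n : ℕ) {S : Set (ℤ × ℤ)} (hS : S ⊆ (F n : Set (ℤ × ℤ))ᶜ)
    (hne : S.Nonempty) (hcl : ∀ a ∈ S, ∀ b ∉ F n, sq9Adj a b → b ∈ S) :
    S = (F n : Set (ℤ × ℤ))ᶜ := by
  have h1 := sq9_approx_frontier_preconnected h n
  rw [inter_comm] at h1
  have h2 : IsPreconnected (sq9U (δ n) (F n : Set (ℤ × ℤ))ᶜ ∩ sq9U (δ n) ((F n : Set (ℤ × ℤ))ᶜ)ᶜ) := by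
    rwa [compl_compl]
  exact sq9_no_split (h.1 n) h2
    (fun v hv => sq9_approx_no_pinch h n v ((sq9_pinch_compl _ v).1 hv)) hS hne hcl

/-- **`F n` is connected** (path form). -/
theorem sq9_F_reach {D : Set (ℝ × ℝ)} {δ : ℕ → ℝ} {F : ℕ → Finset (ℤ × ℤ)}
    (h : IsAdmissibleApprox D δ F) (n : ℕ) {u v : ℤ × ℤ} (hu : u ∈ F n) (hv : v ∈ F n) :
    Relation.ReflTransGen (fun a b => sq9Adj a b ∧ b ∈ F n) u v :=
  sq9_reach_of_no_split (P := (F n : Set (ℤ × ℤ)))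
    (fun _ hS hne hcl => sq9_F_no_split h n hS hne hcl) hu hv

/-- **the complement of `F n` is connected** (path form). -/
theorem sq9_compl_reach {D : Set (ℝ × ℝ)} {δ : ℕ → ℝ} {F : ℕ → Finset (ℤ × ℤ)}
    (h : IsAdmissibleApprox D δ F) (n : ℕ) {u v : ℤ × ℤ} (hu : u ∉ F n) (hv : v ∉ F n) :
    Relation.ReflTransGen (fun a b => sq9Adj a b ∧ b ∉ F n) u v :=
  sq9_reach_of_no_split (P := (F n : Set (ℤ × ℤ))ᶜ)
    (fun _ hS hne hcl => sq9_compl_no_split h n hS hne hcl) hu hv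

/-! ## S3 the contracts J2-J5 of Exit/JORDAN, in their exact words -/

theorem sq9_face_eq_jdSq (δ : ℝ) (f : ℤ × ℤ) : jdSq δ f = sq9Face δ f := rfl

theorem sq9_adj_iff_jdAdj (a b : ℤ × ℤ) : sq9Adj a b ↔ jdAdj a b := by
  unfold sq9Adj jdAdj
  simp only [Prod.ext_iff, Prod.fst_sub, Prod.snd_sub]
  omega

theorem sq9_approx_nonempty {D : Set (ℝ × ℝ)} {δ : ℕ → ℝ} {F : ℕ → Finset (ℤ × ℤ)}
    (h : IsAdmissibleApprox D δ F) (n : ℕ) : (F n).Nonempty := by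
  obtain ⟨g, -, -, h3⟩ := sq9_approx_curve h n
  have h4 : g 1 ∈ sq9U (δ n) (F n : Set (ℤ × ℤ)) ∩ sq9U (δ n) (F n : Set (ℤ × ℤ))ᶜ := by
    rw [← h3]; exact mem_range_self 1
  obtain ⟨u, hu, -⟩ := sq9_mem_U.1 h4.1
  exact ⟨u, hu⟩

/-- **J2.**  Every `F n` of an admissible approximation is a simply connected polyomino. -/
theorem jd179_poly {D : Set (ℝ × ℝ)} {δ : ℕ → ℝ} {F : ℕ → Finset (ℤ × ℤ)}
    (h : IsAdmissibleApprox D δ F) (n : ℕ) : JdPoly (F n) where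
  nonempty := sq9_approx_nonempty h n
  conn f g hf hg :=
    Relation.ReflTransGen.mono (fun a b hab => ⟨(sq9_adj_iff_jdAdj a b).1 hab.1, hab.2⟩) f g
      (sq9_F_reach h n hf hg)
  coconn f g hf hg :=
    Relation.ReflTransGen.mono (fun a b hab => ⟨(sq9_adj_iff_jdAdj a b).1 hab.1, hab.2⟩) f g
      (sq9_compl_reach h n hf hg)
  nopinch v :=
    ⟨fun hp => sq9_approx_no_pinch h n v (Or.inl hp), fun hp => sq9_approx_no_pinch h n v (Or.inr hp)⟩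

/-- **J3.**  Faces which meet a compact subset of `D` are eventually faces of `F n`. -/
theorem jd179_inside {D : Set (ℝ × ℝ)} {δ : ℕ → ℝ} {F : ℕ → Finset (ℤ × ℤ)}
    (h : IsAdmissibleApprox D δ F) {K : Set (ℝ × ℝ)} (hK : IsCompact K) (hKD : K ⊆ D) :
    ∀ᶠ n in atTop, ∀ f : ℤ × ℤ, (jdSq (δ n) f ∩ K).Nonempty → f ∈ F n := by
  filter_upwards [h.2.2.1 K hK hKD] with n hn f hf
  obtain ⟨z, hz1, hz2⟩ := hf
  exact (sq9_mem_region_iff (h.1 n) (F n) z).1 (hn hz2) f hz1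

/-- sup distance from the Euclidean square distance. -/
theorem sq9_dist_lt_of_sq {a b : ℝ × ℝ} {ε : ℝ} (hε : 0 < ε)
    (h : (a.1 - b.1) ^ 2 + (a.2 - b.2) ^ 2 < ε ^ 2) : dist a b < ε := by
  rw [Prod.dist_eq, Real.dist_eq, Real.dist_eq]
  apply max_lt
  · exact abs_lt_of_sq_lt_sq (by nlinarith [sq_nonneg (a.2 - b.2)]) hε.le
  · exact abs_lt_of_sq_lt_sq (by nlinarith [sq_nonneg (a.1 - b.1)]) hε.le

/-- **J4.**  Uniformly in the point `z`: eventually there is a face outside `F n` which meets the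
sup-ball of radius `jdDep D z + ε` about `z`. -/
theorem jd179_reach {D : Set (ℝ × ℝ)} {δ : ℕ → ℝ} {F : ℕ → Finset (ℤ × ℤ)}
    (h : IsAdmissibleApprox D δ F) {ε : ℝ} (hε : 0 < ε) :
    ∀ᶠ n in atTop, ∀ z : ℝ × ℝ, ∃ g : ℤ × ℤ, g ∉ F n ∧
      (jdSq (δ n) g ∩ Metric.closedBall z (jdDep D z + ε)).Nonempty := by
  obtain ⟨h0, -, -, γ, γs, hγc, -, hγr, h1, h2⟩ := h
  filter_upwards [h2 ε hε] with n hn z
  have hcomp : IsCompact (frontier D) := by rw [← hγr]; exact isCompact_range hγc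
  have hne : (frontier D).Nonempty := by rw [← hγr]; exact range_nonempty γ
  obtain ⟨w, hw, hwd⟩ := hcomp.exists_infDist_eq_dist hne z
  rw [← hγr] at hw
  obtain ⟨t, rfl⟩ := hw
  have hy : γs n t ∈ frontier (faceRegionSq (δ n) (F n)) := by
    rw [← (h1 n).2.2]; exact mem_range_self t
  obtain ⟨u, -, g, hg, -, hyg⟩ := (sq9_mem_frontier_iff (h0 n) (F n) _).1 hy
  refine ⟨g, hg, γs n t, hyg, ?_⟩
  rw [Metric.mem_closedBall, jdDep, hwd]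
  have h3 := sq9_dist_lt_of_sq hε (hn t)
  calc dist (γs n t) z ≤ dist (γs n t) (γ t) + dist (γ t) z := dist_triangle _ _ _
    _ ≤ ε + dist z (γ t) := by rw [dist_comm (γ t) z]; linarith
    _ = dist z (γ t) + ε := add_comm _ _

/-- a connected set which meets `W` and its complement meets the frontier of `W`. -/
theorem sq9_inter_frontier {A W : Set (ℝ × ℝ)} (hA : IsPreconnected A) (h1 : (A ∩ W).Nonempty)
    (h2 : (A \ W).Nonempty) : (A ∩ frontier W).Nonempty := by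
  by_contra hc
  have hcov : A ⊆ interior W ∪ (closure W)ᶜ := by
    intro x hx
    by_cases hxc : x ∈ closure W
    · left
      by_contra hxi
      exact hc ⟨x, hx, hxc, hxi⟩
    · right; exact hxc
  obtain ⟨x, hxA, hxW⟩ := h1
  obtain ⟨y, hyA, hyW⟩ := h2
  have hx : x ∈ interior W := (hcov hxA).resolve_right (fun h => h (subset_closure hxW))
  have hy : y ∈ (closure W)ᶜ := (hcov hyA).resolve_left (fun h => hyW (interior_subset h))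
  obtain ⟨w, -, hw1, hw2⟩ := hA _ _ isOpen_interior isClosed_closure.isOpen_compl hcov
    ⟨x, hxA, hx⟩ ⟨y, hyA, hy⟩
  exact hw2 (subset_closure (interior_subset hw1))

/-- a bounded set whose frontier lies in a closed ball about `0` lies in that ball. -/
theorem sq9_subset_ball_of_frontier {W : Set (ℝ × ℝ)} (hb : Bornology.IsBounded W) {R : ℝ}
    (hf : frontier W ⊆ Metric.closedBall (0 : ℝ × ℝ) R) : W ⊆ Metric.closedBall (0 : ℝ × ℝ) R := by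
  intro z hz
  by_contra hzR
  rw [Metric.mem_closedBall, dist_zero_right, not_le] at hzR
  obtain ⟨R', hR'⟩ := hb.subset_closedBall (0 : ℝ × ℝ)
  have hz0 : 0 < ‖z‖ := by
    by_contra hc
    have h1 : ‖z‖ = 0 := le_antisymm (not_lt.1 hc) (norm_nonneg z)
    have h2 : z ∈ Metric.closedBall (0 : ℝ × ℝ) R' := hR' hz
    -- then `R < 0`, the frontier is empty and `W` is clopen, bounded, nonempty
    have hRneg : R < 0 := by linarith
    have hfe : frontier W = ∅ := by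
      apply Set.eq_empty_of_subset_empty
      intro y hy
      have := hf hy
      rw [Metric.mem_closedBall, dist_zero_right] at this
      linarith [norm_nonneg y]
    have hclopen : IsClopen W := isClopen_iff_frontier_eq_empty.2 hfe
    rcases isClopen_iff.1 hclopen with h3 | h3
    · rw [h3] at hz; exact hz
    · rw [h3] at hb
      exact (NormedSpace.unbounded_univ ℝ (ℝ × ℝ)) hb
  -- the ray from `z` to infinity
  set T : ℝ := (|R'| + 1) / ‖z‖ + 1 with hT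
  have hT1 : 1 ≤ T := by
    rw [hT]
    have : 0 ≤ (|R'| + 1) / ‖z‖ := by positivity
    linarith
  have hray : IsPreconnected ((fun t : ℝ => t • z) '' Icc 1 T) :=
    isPreconnected_Icc.image _ (by fun_prop)
  have hin : ((fun t : ℝ => t • z) '' Icc 1 T ∩ W).Nonempty :=
    ⟨z, ⟨1, ⟨le_rfl, hT1⟩, one_smul ℝ z⟩, hz⟩
  have hout : ((fun t : ℝ => t • z) '' Icc 1 T \ W).Nonempty := by
    refine ⟨T • z, ⟨T, ⟨hT1, le_rfl⟩, rfl⟩, fun hW => ?_⟩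
    have h1 := hR' hW
    rw [Metric.mem_closedBall, dist_zero_right, norm_smul, Real.norm_eq_abs,
      abs_of_nonneg (by linarith)] at h1
    have h2 : T * ‖z‖ = |R'| + 1 + ‖z‖ := by
      rw [hT]; field_simp
    have h3 := le_abs_self R'
    linarith
  obtain ⟨y, ⟨t, ⟨ht1, -⟩, rfl⟩, hy⟩ := sq9_inter_frontier hray hin hout
  have h1 := hf hy
  simp only [Metric.mem_closedBall, dist_zero_right, norm_smul, Real.norm_eq_abs] at h1
  rw [abs_of_nonneg (by linarith)] at h1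
  nlinarith

/-- **J5.**  All the face regions lie in one bounded box. -/
theorem jd179_bounded {D : Set (ℝ × ℝ)} (_hb : Bornology.IsBounded D) {δ : ℕ → ℝ}
    {F : ℕ → Finset (ℤ × ℤ)} (h : IsAdmissibleApprox D δ F) :
    ∃ R : ℝ, 0 < R ∧ ∀ n, ∀ f ∈ F n, jdSq (δ n) f ⊆ Metric.closedBall (0 : ℝ × ℝ) R := by
  obtain ⟨h0, -, -, γ, γs, hγc, -, hγr, h1, h2⟩ := h
  obtain ⟨R0, hR0⟩ := (isCompact_range hγc).isBounded.subset_closedBall (0 : ℝ × ℝ)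
  obtain ⟨N, hN⟩ := eventually_atTop.1 (h2 1 one_pos)
  have hlarge : ∀ n, N ≤ n → sq9U (δ n) (F n : Set (ℤ × ℤ)) ⊆ Metric.closedBall (0 : ℝ × ℝ) (R0 + 1) := by
    intro n hn
    rw [← sq9_closure_region (h0 n)]
    apply closure_minimal _ Metric.isClosed_closedBall
    apply sq9_subset_ball_of_frontier (sq9_region_bounded _ _)
    rw [← (h1 n).2.2]
    rintro _ ⟨t, rfl⟩
    have h3 := sq9_dist_lt_of_sq one_pos (hN n hn t)
    have h4 := hR0 (mem_range_self t)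
    rw [Metric.mem_closedBall] at h4 ⊢
    linarith [dist_triangle (γs n t) (γ t) 0]
  have hsmall : IsCompact (⋃ n ∈ {n : ℕ | n < N}, sq9U (δ n) (F n : Set (ℤ × ℤ))) :=
    (Set.finite_lt_nat N).isCompact_biUnion fun n _ => sq9_isCompact_U_finset _ _
  obtain ⟨R1, hR1⟩ := hsmall.isBounded.subset_closedBall (0 : ℝ × ℝ)
  refine ⟨max (|R0| + 1) |R1| , by positivity, fun n f hf z hz => ?_⟩
  have hzU : z ∈ sq9U (δ n) (F n : Set (ℤ × ℤ)) := sq9_mem_U.2 ⟨f, hf, hz⟩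
  rcases lt_or_ge n N with hn | hn
  · have h3 := hR1 (mem_biUnion (show n ∈ {n : ℕ | n < N} from hn) hzU)
    rw [Metric.mem_closedBall] at h3 ⊢
    exact h3.trans ((le_abs_self R1).trans (le_max_right _ _))
  · have h3 := hlarge n hn hzU
    rw [Metric.mem_closedBall] at h3 ⊢
    refine h3.trans (le_trans ?_ (le_max_left _ _))
    linarith [le_abs_self R0]

end Claimed.Agent.R292
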