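import Mathlib
import Claimed.Prelude.Def_0468
import Claimed.Agent.R292.AtConn

/-!
# Row 292 (S0540), unit JORDAN : THE GEOMETRY DICTIONARY OF Def_0468      (owner helper19; prefix `sq19_`, defs `sq19*`)

Port of R291 `Geo/Hex` + `Geo/Region` to the square faces of `faceRegionSq` and to `IsAdmissibleApprox` (which is NOT an inside
approximation: the polygons may stick out of `D`).  No Jordan curve theorem of the continuum is used.  0 sorry.

* sec.1  ONE MESH.  `sq19Pos d v` = sampling point of the frozen pairing.  `sq19_mem_region_iff` (x in the region iff every closed face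
         through x is in `F`), `sq19_closure_region`, `sq19_mem_frontier_iff`, `sq19_pos_mem_region_iff` (vertex in the region iff
         `¬ OnPolygon`), `sq19_mem_corners_iff`, `sq19_pos_mem_closure_iff` (iff `cornersOf`), `sq19_pos_mem_frontier_iff`, sizes, compactness.
* sec.2  LATTICE BOXES `sq19Box u N` (sup norm), `sq19_mem_box_iff_dist`, `sq19_card_box`.
* sec.3  `sq19_preconnected_frontier`, `sq19_ray_frontier`, `sq19_subset_of_frontier_subset` (a bounded set lies in each box containing its frontier).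
* sec.4  SEQUENCES.  `sq19_faces_of_compact`, `sq19_vertices_of_compact`, `sq19_box_subset` (boxes of macroscopic radius around a compact are
         in `F n`), `sq19_frontier_near` (Hausdorff, both ways), `sq19_box_not_subset` (a box larger than depth + eps reaches the complement,
         uniformly in the centre), `sq19_region_subset_ball`, `sq19_exists_ball` (one ball for all polygons).
* sec.5  `sq19_no_triod`: a simple closed curve contains no triod (chart `sq19Chart` of the circle minus a point).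
* sec.6  `Sq19Simple d F`, `sq19_no_cross`, **`sq19_no_pinch`** (no diagonal pair of faces), **`sq19_conn`** (`F` is EDGE connected),
         **`sq19_compl_conn`** (the complement of `F` is EDGE connected; sharpens `at30_compl_conn`), `ReflTransGen` forms, `sq19_nonempty`.
-/

set_option autoImplicit false

namespace Claimed.Agent.R292

open Claims Claims.C0468 Set Filter Topology MeasureTheory

/-! ## 1. One mesh: the region in terms of faces -/

/-- position of the lattice vertex `v` at mesh `d` (the sampling point of the frozen pairing) -/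
def sq19Pos (d : ℝ) (v : ℤ × ℤ) : ℝ × ℝ := (d * v.1, d * v.2)

theorem sq19_mem_region_iff {d : ℝ} (hd : 0 < d) (F : Finset (ℤ × ℤ)) (x : ℝ × ℝ) :
    x ∈ faceRegionSq d F ↔ ∀ f, x ∈ at30Sq d f → f ∈ F := by
  have h := at30_compl_region hd F
  have h2 : x ∉ faceRegionSq d F ↔ ∃ f, f ∉ F ∧ x ∈ at30Sq d f := by
    rw [← Set.mem_compl_iff, h]
    simp only [Set.mem_iUnion, Set.mem_ofPred_eq, exists_prop]
  constructor
  · intro hx f hf
    by_contra hfF
    exact (h2.2 ⟨f, hfF, hf⟩) hx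
  · intro hx
    by_contra hxn
    obtain ⟨f, hfF, hf⟩ := h2.1 hxn
    exact hfF (hx f hf)

theorem sq19_isOpen_region (d : ℝ) (F : Finset (ℤ × ℤ)) : IsOpen (faceRegionSq d F) := isOpen_interior

theorem sq19_region_subset_union (d : ℝ) (F : Finset (ℤ × ℤ)) :
    faceRegionSq d F ⊆ ⋃ f ∈ F, at30Sq d f := interior_subset

theorem sq19_osq_subset_sq (d : ℝ) (f : ℤ × ℤ) : at30Osq d f ⊆ at30Sq d f :=
  Set.prod_mono Set.Ioo_subset_Icc_self Set.Ioo_subset_Icc_self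

theorem sq19_osq_subset_region {d : ℝ} (hd : 0 < d) {F : Finset (ℤ × ℤ)} {f : ℤ × ℤ} (hf : f ∈ F) :
    at30Osq d f ⊆ faceRegionSq d F := by
  intro x hx
  rw [sq19_mem_region_iff hd]
  intro g hg
  rw [at30_eq_of_mem_osq hd hx hg]
  exact hf

theorem sq19_closure_region {d : ℝ} (hd : 0 < d) (F : Finset (ℤ × ℤ)) :
    closure (faceRegionSq d F) = ⋃ f ∈ F, at30Sq d f := by
  apply Set.Subset.antisymm
  · refine closure_minimal (sq19_region_subset_union d F) ?_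
    exact at30_isClosed_union hd (F : Set (ℤ × ℤ))
  · intro x hx
    simp only [Set.mem_iUnion, exists_prop] at hx
    obtain ⟨f, hf, hxf⟩ := hx
    exact closure_mono (sq19_osq_subset_region hd hf) (at30_sq_subset_closure hd f hxf)

theorem sq19_mem_closure_iff {d : ℝ} (hd : 0 < d) (F : Finset (ℤ × ℤ)) (x : ℝ × ℝ) :
    x ∈ closure (faceRegionSq d F) ↔ ∃ f ∈ F, x ∈ at30Sq d f := by
  rw [sq19_closure_region hd]
  simp only [Set.mem_iUnion, exists_prop]

theorem sq19_mem_frontier_iff {d : ℝ} (hd : 0 < d) (F : Finset (ℤ × ℤ)) (x : ℝ × ℝ) :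
    x ∈ frontier (faceRegionSq d F) ↔ (∃ f ∈ F, x ∈ at30Sq d f) ∧ ∃ g, g ∉ F ∧ x ∈ at30Sq d g := by
  rw [(sq19_isOpen_region d F).frontier_eq, Set.mem_sdiff, sq19_mem_closure_iff hd, sq19_mem_region_iff hd]
  push Not
  simp only [and_comm]

theorem sq19_sq_subset_closure_region {d : ℝ} (hd : 0 < d) {F : Finset (ℤ × ℤ)} {f : ℤ × ℤ} (hf : f ∈ F) :
    at30Sq d f ⊆ closure (faceRegionSq d F) := fun x hx => (sq19_mem_closure_iff hd F x).2 ⟨f, hf, hx⟩

/-- one coordinate: the lattice point `d a` lies in the closed cell `[d b, d (b+1)]` iff `b = a` or `b = a - 1` -/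
theorem sq19_coord_mem_iff {d : ℝ} (hd : 0 < d) (a b : ℤ) :
    d * (a : ℝ) ∈ Set.Icc (d * (b : ℝ)) (d * ((b : ℝ) + 1)) ↔ b = a ∨ b = a - 1 := by
  rw [Set.mem_Icc, mul_le_mul_iff_right₀ hd, mul_le_mul_iff_right₀ hd]
  constructor
  · rintro ⟨h1, h2⟩
    have h1' : b ≤ a := by exact_mod_cast h1
    have h2' : a ≤ b + 1 := by exact_mod_cast h2
    omega
  · rintro (h | h)
    · subst h; constructor <;> linarith
    · subst h; push_cast; constructor <;> linarith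

theorem sq19_pos_mem_sq_iff {d : ℝ} (hd : 0 < d) (v f : ℤ × ℤ) :
    sq19Pos d v ∈ at30Sq d f ↔ (f.1 = v.1 ∨ f.1 = v.1 - 1) ∧ (f.2 = v.2 ∨ f.2 = v.2 - 1) := by
  unfold sq19Pos at30Sq
  rw [Set.mem_prod, sq19_coord_mem_iff hd, sq19_coord_mem_iff hd]

theorem sq19_pos_mem_region_iff {d : ℝ} (hd : 0 < d) (F : Finset (ℤ × ℤ)) (v : ℤ × ℤ) :
    sq19Pos d v ∈ faceRegionSq d F ↔ ¬ OnPolygon F v := by
  rw [sq19_mem_region_iff hd]
  unfold OnPolygon
  rw [not_not]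
  constructor
  · intro h
    refine ⟨h v ?_, h _ ?_, h _ ?_, h _ ?_⟩ <;> rw [sq19_pos_mem_sq_iff hd] <;> simp
  · rintro ⟨h1, h2, h3, h4⟩ ⟨a, b⟩ hf
    rw [sq19_pos_mem_sq_iff hd] at hf
    obtain ⟨ha | ha, hb | hb⟩ := hf <;> simp only at ha hb <;> subst ha <;> subst hb <;> assumption

theorem sq19_mem_corners_iff (F : Finset (ℤ × ℤ)) (v : ℤ × ℤ) :
    v ∈ cornersOf F ↔ v ∈ F ∨ (v.1 - 1, v.2) ∈ F ∨ (v.1, v.2 - 1) ∈ F ∨ (v.1 - 1, v.2 - 1) ∈ F := by
  unfold cornersOf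
  simp only [Finset.mem_biUnion, Finset.mem_insert, Finset.mem_singleton]
  constructor
  · rintro ⟨f, hf, h | h | h | h⟩
    · left; rw [h]; exact hf
    · right; left; rw [h]; simpa using hf
    · right; right; left; rw [h]; simpa using hf
    · right; right; right; rw [h]; simpa using hf
  · rintro (h | h | h | h)
    · exact ⟨v, h, Or.inl rfl⟩
    · exact ⟨_, h, Or.inr (Or.inl (by ext <;> simp))⟩
    · exact ⟨_, h, Or.inr (Or.inr (Or.inl (by ext <;> simp)))⟩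
    · exact ⟨_, h, Or.inr (Or.inr (Or.inr (by ext <;> simp)))⟩

theorem sq19_pos_mem_closure_iff {d : ℝ} (hd : 0 < d) (F : Finset (ℤ × ℤ)) (v : ℤ × ℤ) :
    sq19Pos d v ∈ closure (faceRegionSq d F) ↔ v ∈ cornersOf F := by
  rw [sq19_mem_closure_iff hd, sq19_mem_corners_iff]
  constructor
  · rintro ⟨⟨a, b⟩, hf, hx⟩
    rw [sq19_pos_mem_sq_iff hd] at hx
    obtain ⟨ha | ha, hb | hb⟩ := hx <;> simp only at ha hb <;> subst ha <;> subst hb
    · exact Or.inl hf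
    · exact Or.inr (Or.inr (Or.inl hf))
    · exact Or.inr (Or.inl hf)
    · exact Or.inr (Or.inr (Or.inr hf))
  · rintro (h | h | h | h)
    all_goals exact ⟨_, h, by rw [sq19_pos_mem_sq_iff hd]; simp⟩

theorem sq19_pos_mem_frontier_iff {d : ℝ} (hd : 0 < d) (F : Finset (ℤ × ℤ)) (v : ℤ × ℤ) :
    sq19Pos d v ∈ frontier (faceRegionSq d F) ↔ v ∈ cornersOf F ∧ OnPolygon F v := by
  rw [(sq19_isOpen_region d F).frontier_eq, Set.mem_sdiff, sq19_pos_mem_closure_iff hd,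
    sq19_pos_mem_region_iff hd, not_not]

theorem sq19_not_onPolygon_mem_corners {F : Finset (ℤ × ℤ)} {v : ℤ × ℤ} (h : ¬ OnPolygon F v) : v ∈ cornersOf F := by
  unfold OnPolygon at h
  rw [not_not] at h
  exact (sq19_mem_corners_iff F v).2 (Or.inl h.1)

/-- sup-metric size of a face -/
theorem sq19_dist_le_of_mem {d : ℝ} {f : ℤ × ℤ} {x y : ℝ × ℝ} (hx : x ∈ at30Sq d f)
    (hy : y ∈ at30Sq d f) : dist x y ≤ d := by
  obtain ⟨⟨x1, x2⟩, ⟨x3, x4⟩⟩ := hx
  obtain ⟨⟨y1, y2⟩, ⟨y3, y4⟩⟩ := hy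
  rw [Prod.dist_eq, max_le_iff, Real.dist_eq, Real.dist_eq, abs_le, abs_le]
  refine ⟨⟨?_, ?_⟩, ⟨?_, ?_⟩⟩ <;> linarith

theorem sq19_pos_mem_sq {d : ℝ} (hd : 0 < d) (f : ℤ × ℤ) : sq19Pos d f ∈ at30Sq d f := by
  rw [sq19_pos_mem_sq_iff hd]; simp

theorem sq19_dist_pos_le {d : ℝ} (hd : 0 < d) {f : ℤ × ℤ} {x : ℝ × ℝ} (hx : x ∈ at30Sq d f) :
    dist x (sq19Pos d f) ≤ d := sq19_dist_le_of_mem hx (sq19_pos_mem_sq hd f)

theorem sq19_dist_pos (d : ℝ) (hd : 0 ≤ d) (u v : ℤ × ℤ) :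
    dist (sq19Pos d u) (sq19Pos d v) = d * max |((u.1 - v.1 : ℤ) : ℝ)| |((u.2 - v.2 : ℤ) : ℝ)| := by
  unfold sq19Pos
  rw [Prod.dist_eq, Real.dist_eq, Real.dist_eq, ← mul_sub, ← mul_sub, abs_mul, abs_mul, abs_of_nonneg hd,
    mul_max_of_nonneg _ _ hd]
  push_cast
  rfl

theorem sq19_isCompact_sq (d : ℝ) (f : ℤ × ℤ) : IsCompact (at30Sq d f) := isCompact_Icc.prod isCompact_Icc

theorem sq19_isCompact_closure_region {d : ℝ} (hd : 0 < d) (F : Finset (ℤ × ℤ)) :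
    IsCompact (closure (faceRegionSq d F)) := by
  rw [sq19_closure_region hd]
  exact F.isCompact_biUnion fun f _ => sq19_isCompact_sq d f

theorem sq19_isBounded_region {d : ℝ} (hd : 0 < d) (F : Finset (ℤ × ℤ)) :
    Bornology.IsBounded (faceRegionSq d F) :=
  (sq19_isCompact_closure_region hd F).isBounded.subset subset_closure

/-! ## 2. Lattice boxes -/

/-- the lattice box of radius `N` around `u` (sup norm) -/
noncomputable def sq19Box (u : ℤ × ℤ) (N : ℕ) : Finset (ℤ × ℤ) :=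
  Finset.Icc (u.1 - N) (u.1 + N) ×ˢ Finset.Icc (u.2 - N) (u.2 + N)

theorem sq19_mem_box (u v : ℤ × ℤ) (N : ℕ) : v ∈ sq19Box u N ↔ |v.1 - u.1| ≤ N ∧ |v.2 - u.2| ≤ N := by
  unfold sq19Box
  rw [Finset.mem_product, Finset.mem_Icc, Finset.mem_Icc, abs_le, abs_le]
  constructor
  · rintro ⟨⟨h1, h2⟩, ⟨h3, h4⟩⟩
    refine ⟨⟨?_, ?_⟩, ⟨?_, ?_⟩⟩ <;> omega
  · rintro ⟨⟨h1, h2⟩, ⟨h3, h4⟩⟩
    refine ⟨⟨?_, ?_⟩, ⟨?_, ?_⟩⟩ <;> omega

theorem sq19_self_mem_box (u : ℤ × ℤ) (N : ℕ) : u ∈ sq19Box u N := by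
  rw [sq19_mem_box]; simp

theorem sq19_box_mono (u : ℤ × ℤ) {N N' : ℕ} (h : N ≤ N') : sq19Box u N ⊆ sq19Box u N' := by
  intro v hv
  rw [sq19_mem_box] at hv ⊢
  have : (N : ℤ) ≤ N' := by exact_mod_cast h
  exact ⟨hv.1.trans this, hv.2.trans this⟩

theorem sq19_card_box (u : ℤ × ℤ) (N : ℕ) : (sq19Box u N).card = (2 * N + 1) ^ 2 := by
  unfold sq19Box
  rw [Finset.card_product, Int.card_Icc, Int.card_Icc, sq]
  congr 1 <;> omega

theorem sq19_mem_box_iff_dist {d : ℝ} (hd : 0 < d) (u v : ℤ × ℤ) (N : ℕ) :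
    v ∈ sq19Box u N ↔ dist (sq19Pos d v) (sq19Pos d u) ≤ d * N := by
  rw [sq19_mem_box, sq19_dist_pos d hd.le, mul_le_mul_iff_right₀ hd, max_le_iff]
  constructor
  · rintro ⟨h1, h2⟩
    constructor
    · rw [← Int.cast_abs]; exact_mod_cast h1
    · rw [← Int.cast_abs]; exact_mod_cast h2
  · rintro ⟨h1, h2⟩
    rw [← Int.cast_abs] at h1 h2
    exact ⟨by exact_mod_cast h1, by exact_mod_cast h2⟩

/-! ## 3. Bounded open sets and their frontier -/

/-- a preconnected set which meets a set and its complement meets the frontier -/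
theorem sq19_preconnected_frontier {X : Type*} [TopologicalSpace X] {t s : Set X} (ht : IsPreconnected t)
    (h1 : (t ∩ s).Nonempty) (h2 : (t ∩ sᶜ).Nonempty) : (t ∩ frontier s).Nonempty := by
  by_contra hne
  rw [Set.not_nonempty_iff_eq_empty] at hne
  have hoff : ∀ x ∈ t, x ∉ frontier s := fun x hx hf => by
    have : x ∈ t ∩ frontier s := ⟨hx, hf⟩
    rw [hne] at this
    exact this
  have hin : ∀ x ∈ t, x ∈ s → x ∈ interior s := fun x hx hs => by
    by_contra hi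
    exact hoff x hx ⟨subset_closure hs, hi⟩
  have hout : ∀ x ∈ t, x ∉ s → x ∈ interior sᶜ := fun x hx hs => by
    rw [interior_compl]
    intro hc
    exact hoff x hx ⟨hc, fun hi => hs (interior_subset hi)⟩
  obtain ⟨a, hat, has⟩ := h1
  obtain ⟨b, hbt, hbs⟩ := h2
  obtain ⟨z, -, hz1, hz2⟩ := ht (interior s) (interior sᶜ) isOpen_interior isOpen_interior
    (fun x hx => by
      by_cases hs : x ∈ s
      · exact Or.inl (hin x hx hs)
      · exact Or.inr (hout x hx hs))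
    ⟨a, hat, hin a hat has⟩ ⟨b, hbt, hout b hbt hbs⟩
  exact (interior_subset hz2) (interior_subset hz1)

/-- from a point of a bounded set every ray meets the frontier -/
theorem sq19_ray_frontier {U : Set (ℝ × ℝ)} (hb : Bornology.IsBounded U) {x : ℝ × ℝ} (hx : x ∈ U)
    {e : ℝ × ℝ} (he : e ≠ 0) : ∃ t : ℝ, 0 ≤ t ∧ x + t • e ∈ frontier U := by
  have hray : IsPreconnected ((fun t : ℝ => x + t • e) '' Set.Ici 0) :=
    isPreconnected_Ici.image _ (by fun_prop)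
  have h1 : (((fun t : ℝ => x + t • e) '' Set.Ici 0) ∩ U).Nonempty :=
    ⟨x, ⟨0, Set.mem_Ici.2 le_rfl, by simp⟩, hx⟩
  have h2 : (((fun t : ℝ => x + t • e) '' Set.Ici 0) ∩ Uᶜ).Nonempty := by
    obtain ⟨R, hR⟩ := hb.subset_closedBall x
    have hne : 0 < ‖e‖ := norm_pos_iff.2 he
    refine ⟨x + ((|R| + 1) / ‖e‖) • e, ⟨_, Set.mem_Ici.2 (by positivity), rfl⟩, ?_⟩
    intro hU
    have := hR hU
    rw [Metric.mem_closedBall, dist_eq_norm, add_sub_cancel_left, norm_smul, Real.norm_eq_abs,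
      abs_of_nonneg (by positivity), div_mul_cancel₀ _ hne.ne'] at this
    linarith [le_abs_self R]
  obtain ⟨y, ⟨t, ht, rfl⟩, hy⟩ := sq19_preconnected_frontier hray h1 h2
  exact ⟨t, ht, hy⟩

/-- a bounded set lies in every closed (sup-metric) ball which contains its frontier -/
theorem sq19_subset_of_frontier_subset {U : Set (ℝ × ℝ)} (hb : Bornology.IsBounded U) {c : ℝ × ℝ} {R : ℝ}
    (hfr : frontier U ⊆ Metric.closedBall c R) : U ⊆ Metric.closedBall c R := by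
  intro x hx
  obtain ⟨t1, h1, f1⟩ := sq19_ray_frontier hb hx (e := (1, 0)) (by simp)
  obtain ⟨t2, h2, f2⟩ := sq19_ray_frontier hb hx (e := (-1, 0)) (by simp)
  obtain ⟨t3, h3, f3⟩ := sq19_ray_frontier hb hx (e := (0, 1)) (by simp)
  obtain ⟨t4, h4, f4⟩ := sq19_ray_frontier hb hx (e := (0, -1)) (by simp)
  have g1 := hfr f1
  have g2 := hfr f2
  have g3 := hfr f3
  have g4 := hfr f4
  rw [Metric.mem_closedBall, Prod.dist_eq, max_le_iff, Real.dist_eq, Real.dist_eq, abs_le, abs_le] at g1 g2 g3 g4 ⊢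
  simp only [Prod.fst_add, Prod.snd_add, Prod.smul_fst, Prod.smul_snd, smul_eq_mul, mul_one, mul_zero, add_zero,
    mul_neg] at g1 g2 g3 g4
  refine ⟨⟨?_, ?_⟩, ⟨?_, ?_⟩⟩ <;> linarith [g1.1.1, g1.1.2, g2.1.1, g2.1.2, g3.2.1, g3.2.2, g4.2.1, g4.2.2]

/-! ## 4. Sequences: `IsAdmissibleApprox` -/

section seq

variable {D : Set (ℝ × ℝ)} {δ : ℕ → ℝ} {F : ℕ → Finset (ℤ × ℤ)}

theorem sq19_mesh_pos (happ : IsAdmissibleApprox D δ F) (n : ℕ) : 0 < δ n := happ.1 n

theorem sq19_mesh_tendsto (happ : IsAdmissibleApprox D δ F) : Tendsto δ atTop (𝓝 0) := happ.2.1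

theorem sq19_mesh_lt (happ : IsAdmissibleApprox D δ F) {ε : ℝ} (hε : 0 < ε) : ∀ᶠ n in atTop, δ n < ε :=
  (sq19_mesh_tendsto happ).eventually (gt_mem_nhds hε)

theorem sq19_compact_subset (happ : IsAdmissibleApprox D δ F) {K : Set (ℝ × ℝ)} (hK : IsCompact K) (hKD : K ⊆ D) :
    ∀ᶠ n in atTop, K ⊆ faceRegionSq (δ n) (F n) := happ.2.2.1 K hK hKD

/-- every face which meets a compact subset of `D` is eventually a face of `F n` -/
theorem sq19_faces_of_compact (happ : IsAdmissibleApprox D δ F) {K : Set (ℝ × ℝ)} (hK : IsCompact K) (hKD : K ⊆ D) :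
    ∀ᶠ n in atTop, ∀ f, (at30Sq (δ n) f ∩ K).Nonempty → f ∈ F n := by
  filter_upwards [sq19_compact_subset happ hK hKD] with n hn f hf
  obtain ⟨x, hxf, hxK⟩ := hf
  exact (sq19_mem_region_iff (happ.1 n) _ x).1 (hn hxK) f hxf

/-- every vertex sampled in a compact subset of `D` is eventually an interior vertex of `F n` -/
theorem sq19_vertices_of_compact (happ : IsAdmissibleApprox D δ F) {K : Set (ℝ × ℝ)} (hK : IsCompact K)
    (hKD : K ⊆ D) : ∀ᶠ n in atTop, ∀ v, sq19Pos (δ n) v ∈ K → v ∈ cornersOf (F n) ∧ ¬ OnPolygon (F n) v := by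
  filter_upwards [sq19_compact_subset happ hK hKD] with n hn v hv
  have h := (sq19_pos_mem_region_iff (happ.1 n) (F n) v).1 (hn hv)
  exact ⟨sq19_not_onPolygon_mem_corners h, h⟩

/-- lattice boxes of macroscopic radius `≤ ρ` around the vertices of a compact set are eventually inside `F n` -/
theorem sq19_box_subset (happ : IsAdmissibleApprox D δ F) {K : Set (ℝ × ℝ)} (hK : IsCompact K) {ρ : ℝ}
    (hKD : Metric.cthickening ρ K ⊆ D) :
    ∀ᶠ n in atTop, ∀ u, sq19Pos (δ n) u ∈ K → ∀ N : ℕ, δ n * N ≤ ρ → sq19Box u N ⊆ F n := by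
  filter_upwards [sq19_faces_of_compact happ hK.cthickening hKD] with n hn u hu N hN v hv
  refine hn v ⟨sq19Pos (δ n) v, sq19_pos_mem_sq (happ.1 n) v, ?_⟩
  exact Metric.mem_cthickening_of_dist_le _ _ _ _ hu (((sq19_mem_box_iff_dist (happ.1 n) u v N).1 hv).trans hN)

theorem sq19_exists_rho (hDo : IsOpen D) {K : Set (ℝ × ℝ)} (hK : IsCompact K) (hKD : K ⊆ D) :
    ∃ ρ : ℝ, 0 < ρ ∧ Metric.cthickening ρ K ⊆ D := hK.exists_cthickening_subset_open hDo hKD

theorem sq19_frontier_nonempty (happ : IsAdmissibleApprox D δ F) : (frontier D).Nonempty := by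
  obtain ⟨-, -, -, γ, γs, -, -, hr, -, -⟩ := happ
  rw [← hr]
  exact Set.range_nonempty γ

/-- the frontiers of the polygons converge to the frontier of `D` in the Hausdorff sense (sup metric) -/
theorem sq19_frontier_near (happ : IsAdmissibleApprox D δ F) {ε : ℝ} (hε : 0 < ε) : ∀ᶠ n in atTop,
    (∀ x ∈ frontier (faceRegionSq (δ n) (F n)), ∃ y ∈ frontier D, dist x y < ε) ∧
      ∀ y ∈ frontier D, ∃ x ∈ frontier (faceRegionSq (δ n) (F n)), dist x y < ε := by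
  obtain ⟨-, -, -, γ, γs, -, -, hr, hs, hlim⟩ := happ
  filter_upwards [hlim ε hε] with n hn
  have key : ∀ z, dist (γs n z) (γ z) < ε := by
    intro z
    have h := hn z
    rw [Prod.dist_eq, max_lt_iff, Real.dist_eq, Real.dist_eq]
    constructor
    · exact abs_lt_of_sq_lt_sq (by nlinarith [sq_nonneg ((γs n z).2 - (γ z).2)]) hε.le
    · exact abs_lt_of_sq_lt_sq (by nlinarith [sq_nonneg ((γs n z).1 - (γ z).1)]) hε.le
  constructor
  · intro x hx
    rw [← (hs n).2.2] at hx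
    obtain ⟨z, rfl⟩ := hx
    exact ⟨γ z, hr ▸ Set.mem_range_self z, key z⟩
  · intro y hy
    rw [← hr] at hy
    obtain ⟨z, rfl⟩ := hy
    exact ⟨γs n z, (hs n).2.2 ▸ Set.mem_range_self z, key z⟩

/-- a lattice box whose macroscopic radius exceeds the depth of its centre by `ε` reaches the complement of `F n`
(uniformly in the centre, which may be anywhere in the plane) -/
theorem sq19_box_not_subset (happ : IsAdmissibleApprox D δ F) {ε : ℝ} (hε : 0 < ε) : ∀ᶠ n in atTop,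
    ∀ (u : ℤ × ℤ) (N : ℕ), Metric.infDist (sq19Pos (δ n) u) (frontier D) + ε ≤ δ n * N → ¬ sq19Box u N ⊆ F n := by
  filter_upwards [sq19_frontier_near happ (show 0 < ε / 4 by positivity),
    sq19_mesh_lt happ (show 0 < ε / 4 by positivity)] with n hn hδ u N hN hsub
  have hd := happ.1 n
  obtain ⟨y, hy, hyd⟩ := (Metric.infDist_lt_iff (sq19_frontier_nonempty happ)).1
    (show Metric.infDist (sq19Pos (δ n) u) (frontier D) < Metric.infDist (sq19Pos (δ n) u) (frontier D) + ε / 4 by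
      linarith)
  obtain ⟨x, hx, hxy⟩ := hn.2 y hy
  obtain ⟨-, g, hgF, hxg⟩ := (sq19_mem_frontier_iff hd (F n) x).1 hx
  apply hgF
  apply hsub
  rw [sq19_mem_box_iff_dist hd]
  have h1 : dist (sq19Pos (δ n) g) x ≤ δ n := by rw [dist_comm]; exact sq19_dist_pos_le hd hxg
  have h2 : dist (sq19Pos (δ n) g) (sq19Pos (δ n) u) ≤
      dist (sq19Pos (δ n) g) x + dist x y + dist y (sq19Pos (δ n) u) := dist_triangle4 _ _ _ _
  rw [dist_comm y] at h2
  linarith

/-- the polygons are eventually inside any closed ball whose interior contains the frontier of `D` with a margin -/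
theorem sq19_region_subset_ball (happ : IsAdmissibleApprox D δ F) {c : ℝ × ℝ} {R ε : ℝ} (hε : 0 < ε)
    (hD : frontier D ⊆ Metric.closedBall c R) :
    ∀ᶠ n in atTop, closure (faceRegionSq (δ n) (F n)) ⊆ Metric.closedBall c (R + ε) := by
  filter_upwards [sq19_frontier_near happ hε] with n hn
  refine closure_minimal (sq19_subset_of_frontier_subset (sq19_isBounded_region (happ.1 n) _) ?_) Metric.isClosed_closedBall
  intro x hx
  obtain ⟨y, hy, hxy⟩ := hn.1 x hx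
  have := hD hy
  rw [Metric.mem_closedBall] at this ⊢
  linarith [dist_triangle x y c]

/-- one ball for all the polygons -/
theorem sq19_exists_ball (happ : IsAdmissibleApprox D δ F) (hDb : Bornology.IsBounded D) :
    ∃ R : ℝ, 0 < R ∧ ∀ n, closure (faceRegionSq (δ n) (F n)) ⊆ Metric.closedBall 0 R := by
  obtain ⟨R0, hR0⟩ := (hDb.closure.subset frontier_subset_closure).subset_closedBall (0 : ℝ × ℝ)
  obtain ⟨N0, hN0⟩ := Filter.eventually_atTop.1 (sq19_region_subset_ball happ one_pos hR0)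
  have hb : ∀ n, ∃ r : ℝ, closure (faceRegionSq (δ n) (F n)) ⊆ Metric.closedBall 0 r := fun n =>
    (sq19_isCompact_closure_region (happ.1 n) (F n)).isBounded.subset_closedBall 0
  choose r hr using hb
  obtain ⟨M, hM⟩ := ((Set.finite_lt_nat N0).image r).bddAbove
  refine ⟨max (max M (R0 + 1)) 1, lt_max_of_lt_right one_pos, fun n => ?_⟩
  by_cases hn : n < N0
  · exact (hr n).trans (Metric.closedBall_subset_closedBall
      ((hM ⟨n, hn, rfl⟩).trans ((le_max_left _ _).trans (le_max_left _ _))))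
  · exact (hN0 n (not_lt.1 hn)).trans (Metric.closedBall_subset_closedBall
      ((le_max_right _ _).trans (le_max_left _ _)))

end seq

/-! ## 5. A circle contains no triod -/

theorem sq19_real_pair {A B : Set ℝ} (cA : A.OrdConnected) (cB : B.OrdConnected) {t0 a b : ℝ} (hA0 : t0 ∈ A)
    (hB0 : t0 ∈ B) (ha : a ∈ A) (hb : b ∈ B) (hd : ∀ t, t ∈ A → t ∈ B → t = t0) :
    ¬ (t0 < a ∧ t0 < b) ∧ ¬ (a < t0 ∧ b < t0) := by
  constructor
  · rintro ⟨h1, h2⟩
    rcases le_total a b with h | h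
    · exact h1.ne' (hd a ha (cB.out hB0 hb ⟨h1.le, h⟩))
    · exact h2.ne' (hd b (cA.out hA0 ha ⟨h2.le, h⟩) hb)
  · rintro ⟨h1, h2⟩
    rcases le_total a b with h | h
    · exact h2.ne (hd b (cA.out ha hA0 ⟨h, h2.le⟩) hb)
    · exact h1.ne (hd a ha (cB.out hb hB0 ⟨h, h1.le⟩))

theorem sq19_real_no_triod {T1 T2 T3 : Set ℝ} (c1 : T1.OrdConnected) (c2 : T2.OrdConnected)
    (c3 : T3.OrdConnected) {t0 t1 t2 t3 : ℝ} (h01 : t0 ∈ T1) (h02 : t0 ∈ T2) (h03 : t0 ∈ T3) (h1 : t1 ∈ T1)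
    (h2 : t2 ∈ T2) (h3 : t3 ∈ T3) (n1 : t1 ≠ t0) (n2 : t2 ≠ t0) (n3 : t3 ≠ t0)
    (d12 : ∀ t, t ∈ T1 → t ∈ T2 → t = t0) (d13 : ∀ t, t ∈ T1 → t ∈ T3 → t = t0)
    (d23 : ∀ t, t ∈ T2 → t ∈ T3 → t = t0) : False := by
  obtain ⟨a1, a2⟩ := sq19_real_pair c1 c2 h01 h02 h1 h2 d12
  obtain ⟨b1, b2⟩ := sq19_real_pair c1 c3 h01 h03 h1 h3 d13
  obtain ⟨e1, e2⟩ := sq19_real_pair c2 c3 h02 h03 h2 h3 d23
  rcases lt_or_gt_of_ne n1 with g1 | g1 <;> rcases lt_or_gt_of_ne n2 with g2 | g2 <;>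
    rcases lt_or_gt_of_ne n3 with g3 | g3
  · exact a2 ⟨g1, g2⟩
  · exact a2 ⟨g1, g2⟩
  · exact b2 ⟨g1, g3⟩
  · exact e1 ⟨g2, g3⟩
  · exact e2 ⟨g2, g3⟩
  · exact b1 ⟨g1, g3⟩
  · exact a1 ⟨g1, g2⟩
  · exact a1 ⟨g1, g2⟩

/-- a point of the unit circle other than `-1` lies in the slit plane -/
theorem sq19_circle_slit {w : Circle} (hw : (w : ℂ) ≠ -1) : (w : ℂ) ∈ Complex.slitPlane := by
  rw [Complex.mem_slitPlane_iff]
  by_contra h
  push Not at h
  obtain ⟨h1, h2⟩ := h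
  apply hw
  have hn : Complex.normSq (w : ℂ) = 1 := by
    rw [Complex.normSq_eq_norm_sq, Circle.norm_coe]; norm_num
  rw [Complex.normSq_apply, h2] at hn
  have h3 : (w : ℂ).re = -1 := by nlinarith
  apply Complex.ext
  · simpa using h3
  · simpa using h2

/-- the chart of the circle minus the point `c0` -/
noncomputable def sq19Chart (c0 z : Circle) : ℝ := Complex.arg ((z * c0⁻¹ * Circle.exp Real.pi : Circle) : ℂ)

theorem sq19_chart_injective (c0 : Circle) : Function.Injective (sq19Chart c0) := by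
  intro z z' h
  have h1 := Circle.injective_arg h
  have h2 := mul_right_cancel h1
  exact mul_right_cancel h2

theorem sq19_chart_continuousAt {c0 z : Circle} (hz : z ≠ c0) : ContinuousAt (sq19Chart c0) z := by
  unfold sq19Chart
  have hne : ((z * c0⁻¹ * Circle.exp Real.pi : Circle) : ℂ) ≠ -1 := by
    intro h
    have h1 : ((Circle.exp Real.pi : Circle) : ℂ) = -1 := by
      rw [Circle.coe_exp]; exact Complex.exp_pi_mul_I
    have h2 : z * c0⁻¹ * Circle.exp Real.pi = Circle.exp Real.pi := by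
      apply Circle.ext
      rw [h, h1]
    have h3 : z * c0⁻¹ = 1 := by simpa using h2
    exact hz (mul_inv_eq_one.1 h3)
  have hc : ContinuousAt (fun z : Circle => ((z * c0⁻¹ * Circle.exp Real.pi : Circle) : ℂ)) z :=
    (continuous_subtype_val.comp (by fun_prop : Continuous fun z : Circle => z * c0⁻¹ * Circle.exp Real.pi)).continuousAt
  exact ContinuousAt.comp (f := fun z : Circle => ((z * c0⁻¹ * Circle.exp Real.pi : Circle) : ℂ))
    (Complex.continuousAt_arg (sq19_circle_slit hne)) hc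

/-- **no triod**: three connected subsets of a simple closed curve which pairwise meet only in a common point `p`,
each with a second point, cover the curve. -/
theorem sq19_no_triod {X : Type*} [TopologicalSpace X] [T2Space X] {g : Circle → X} (hc : Continuous g)
    (hi : Function.Injective g) {E1 E2 E3 : Set X} (c1 : IsPreconnected E1) (c2 : IsPreconnected E2)
    (c3 : IsPreconnected E3) (r1 : E1 ⊆ Set.range g) (r2 : E2 ⊆ Set.range g) (r3 : E3 ⊆ Set.range g)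
    {p x1 x2 x3 q : X} (p1 : p ∈ E1) (p2 : p ∈ E2) (p3 : p ∈ E3) (h1 : x1 ∈ E1) (h2 : x2 ∈ E2) (h3 : x3 ∈ E3)
    (n1 : x1 ≠ p) (n2 : x2 ≠ p) (n3 : x3 ≠ p) (d12 : ∀ x, x ∈ E1 → x ∈ E2 → x = p)
    (d13 : ∀ x, x ∈ E1 → x ∈ E3 → x = p) (d23 : ∀ x, x ∈ E2 → x ∈ E3 → x = p)
    (hq : q ∈ Set.range g) (q1 : q ∉ E1) (q2 : q ∉ E2) (q3 : q ∉ E3) : False := by
  have hemb := (hc.isClosedEmbedding hi).isEmbedding
  obtain ⟨c0, rfl⟩ := hq
  have hpre : ∀ E : Set X, IsPreconnected E → E ⊆ Set.range g → g c0 ∉ E →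
      (sq19Chart c0 '' (g ⁻¹' E)).OrdConnected := by
    intro E cE rE qE
    have hS : IsPreconnected (g ⁻¹' E) := by
      rw [← hemb.isInducing.isPreconnected_image, Set.image_preimage_eq_of_subset rE]
      exact cE
    refine (hS.image _ ?_).ordConnected
    intro z hz
    have hzc : z ≠ c0 := by
      rintro rfl
      exact qE hz
    exact (sq19_chart_continuousAt hzc).continuousWithinAt
  obtain ⟨s0, rfl⟩ := r1 p1
  obtain ⟨s1, rfl⟩ := r1 h1
  obtain ⟨s2, rfl⟩ := r2 h2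
  obtain ⟨s3, rfl⟩ := r3 h3
  have hdis : ∀ E E' : Set X, (∀ x, x ∈ E → x ∈ E' → x = g s0) → ∀ t, t ∈ sq19Chart c0 '' (g ⁻¹' E) →
      t ∈ sq19Chart c0 '' (g ⁻¹' E') → t = sq19Chart c0 s0 := by
    rintro E E' hd t ⟨z, hz, rfl⟩ ⟨z', hz', hzz⟩
    have : z' = z := sq19_chart_injective c0 hzz
    subst this
    rw [hi (hd _ hz hz')]
  have hne : ∀ s, g s ≠ g s0 → sq19Chart c0 s ≠ sq19Chart c0 s0 := fun s hs h =>
    hs (congrArg g (sq19_chart_injective c0 h))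
  exact sq19_real_no_triod (hpre E1 c1 r1 q1) (hpre E2 c2 r2 q2) (hpre E3 c3 r3 q3)
    (Set.mem_image_of_mem _ p1) (Set.mem_image_of_mem _ p2) (Set.mem_image_of_mem _ p3)
    (Set.mem_image_of_mem _ h1) (Set.mem_image_of_mem _ h2) (Set.mem_image_of_mem _ h3)
    (hne s1 n1) (hne s2 n2) (hne s3 n3) (hdis E1 E2 d12) (hdis E1 E3 d13) (hdis E2 E3 d23)

/-! ## 6. No pinch point; `F` and its complement are edge connected -/

/-- the frontier of the face region is a simple closed curve -/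
def Sq19Simple (d : ℝ) (F : Finset (ℤ × ℤ)) : Prop :=
  ∃ g : Circle → ℝ × ℝ, Continuous g ∧ Function.Injective g ∧ Set.range g = frontier (faceRegionSq d F)

theorem sq19_simple_of_approx {D : Set (ℝ × ℝ)} {δ : ℕ → ℝ} {F : ℕ → Finset (ℤ × ℤ)}
    (happ : IsAdmissibleApprox D δ F) (n : ℕ) : Sq19Simple (δ n) (F n) := by
  obtain ⟨-, -, -, γ, γs, -, -, -, hs, -⟩ := happ
  exact ⟨γs n, hs n⟩

theorem sq19_simple_preconnected {d : ℝ} {F : Finset (ℤ × ℤ)} (hs : Sq19Simple d F) :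
    IsPreconnected (frontier (faceRegionSq d F)) := by
  obtain ⟨g, hc, -, hr⟩ := hs
  rw [← hr]
  exact isPreconnected_range hc

theorem sq19_mem_frontier_of_two {d : ℝ} (hd : 0 < d) {F : Finset (ℤ × ℤ)} {x : ℝ × ℝ} {f g : ℤ × ℤ}
    (hf : x ∈ at30Sq d f) (hg : x ∈ at30Sq d g) (h : f ∈ F ↔ g ∉ F) : x ∈ frontier (faceRegionSq d F) := by
  rw [sq19_mem_frontier_iff hd]
  by_cases hfF : f ∈ F
  · exact ⟨⟨f, hfF, hf⟩, ⟨g, h.1 hfF, hg⟩⟩
  · have hgF : g ∈ F := by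
      by_contra hgF
      exact hfF (h.2 hgF)
    exact ⟨⟨g, hgF, hg⟩, ⟨f, hfF, hf⟩⟩

/-- **no cross**: the four edges at a vertex cannot all belong to the frontier -/
theorem sq19_no_cross {d : ℝ} (hd : 0 < d) {F : Finset (ℤ × ℤ)} (hs : Sq19Simple d F) (v : ℤ × ℤ)
    (hE : v ∈ F ↔ (v.1, v.2 - 1) ∉ F) (hN : v ∈ F ↔ (v.1 - 1, v.2) ∉ F)
    (hW : (v.1 - 1, v.2) ∈ F ↔ (v.1 - 1, v.2 - 1) ∉ F) : False := by
  obtain ⟨g, hc, hi, hr⟩ := hs
  have hS : (v.1 - 1, v.2 - 1) ∈ F ↔ (v.1, v.2 - 1) ∉ F := by tauto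
  set a : ℝ := d * v.1 with ha
  set b : ℝ := d * v.2 with hb
  have hE1 : Set.Icc a (a + d) ×ˢ ({b} : Set ℝ) ⊆ Set.range g := by
    rintro ⟨x, y⟩ ⟨⟨h1, h2⟩, h3⟩
    simp only [Set.mem_singleton_iff] at h1 h2 h3
    subst h3
    rw [hr]
    refine sq19_mem_frontier_of_two hd (f := v) (g := (v.1, v.2 - 1)) ?_ ?_ hE
    · refine ⟨⟨h1, ?_⟩, ⟨le_rfl, ?_⟩⟩ <;> simp only <;> nlinarith
    · refine ⟨⟨h1, ?_⟩, ⟨?_, ?_⟩⟩ <;> simp only <;> push_cast <;> nlinarith
  have hE2 : ({a} : Set ℝ) ×ˢ Set.Icc b (b + d) ⊆ Set.range g := by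
    rintro ⟨x, y⟩ ⟨h3, ⟨h1, h2⟩⟩
    simp only [Set.mem_singleton_iff] at h1 h2 h3
    subst h3
    rw [hr]
    refine sq19_mem_frontier_of_two hd (f := v) (g := (v.1 - 1, v.2)) ?_ ?_ hN
    · refine ⟨⟨le_rfl, ?_⟩, ⟨h1, ?_⟩⟩ <;> simp only <;> nlinarith
    · refine ⟨⟨?_, ?_⟩, ⟨h1, ?_⟩⟩ <;> simp only <;> push_cast <;> nlinarith
  have hE3 : Set.Icc (a - d) a ×ˢ ({b} : Set ℝ) ⊆ Set.range g := by
    rintro ⟨x, y⟩ ⟨⟨h1, h2⟩, h3⟩
    simp only [Set.mem_singleton_iff] at h1 h2 h3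
    subst h3
    rw [hr]
    refine sq19_mem_frontier_of_two hd (f := (v.1 - 1, v.2)) (g := (v.1 - 1, v.2 - 1)) ?_ ?_ hW
    · refine ⟨⟨?_, ?_⟩, ⟨?_, ?_⟩⟩ <;> simp only <;> push_cast <;> nlinarith
    · refine ⟨⟨?_, ?_⟩, ⟨?_, ?_⟩⟩ <;> simp only <;> push_cast <;> nlinarith
  have hq : ((a, b - d) : ℝ × ℝ) ∈ Set.range g := by
    rw [hr]
    refine sq19_mem_frontier_of_two hd (f := (v.1 - 1, v.2 - 1)) (g := (v.1, v.2 - 1)) ?_ ?_ hS
    · refine ⟨⟨?_, ?_⟩, ⟨?_, ?_⟩⟩ <;> simp only <;> push_cast <;> nlinarith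
    · refine ⟨⟨?_, ?_⟩, ⟨?_, ?_⟩⟩ <;> simp only <;> push_cast <;> nlinarith
  refine sq19_no_triod hc hi (E1 := Set.Icc a (a + d) ×ˢ ({b} : Set ℝ)) (E2 := ({a} : Set ℝ) ×ˢ Set.Icc b (b + d))
    (E3 := Set.Icc (a - d) a ×ˢ ({b} : Set ℝ)) (isPreconnected_Icc.prod isPreconnected_singleton)
    (isPreconnected_singleton.prod isPreconnected_Icc) (isPreconnected_Icc.prod isPreconnected_singleton)
    hE1 hE2 hE3 (p := (a, b)) (x1 := (a + d, b)) (x2 := (a, b + d)) (x3 := (a - d, b)) (q := (a, b - d))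
    ?_ ?_ ?_ ?_ ?_ ?_ ?_ ?_ ?_ ?_ ?_ ?_ hq ?_ ?_ ?_
  · exact ⟨⟨le_rfl, by simp only; linarith⟩, rfl⟩
  · exact ⟨rfl, ⟨le_rfl, by simp only; linarith⟩⟩
  · exact ⟨⟨by simp only; linarith, le_rfl⟩, rfl⟩
  · exact ⟨⟨by simp only; linarith, le_rfl⟩, rfl⟩
  · exact ⟨rfl, ⟨by simp only; linarith, le_rfl⟩⟩
  · exact ⟨⟨le_rfl, by simp only; linarith⟩, rfl⟩
  · intro h
    have := congrArg Prod.fst h
    simp only at this
    linarith
  · intro h
    have := congrArg Prod.snd h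
    simp only at this
    linarith
  · intro h
    have := congrArg Prod.fst h
    simp only at this
    linarith
  · rintro ⟨x, y⟩ ⟨-, h1⟩ ⟨h2, -⟩
    simp only [Set.mem_singleton_iff] at h1 h2
    rw [h1, h2]
  · rintro ⟨x, y⟩ ⟨⟨h0, -⟩, h1⟩ ⟨⟨-, h2⟩, -⟩
    simp only [Set.mem_singleton_iff] at h0 h1 h2
    rw [h1, le_antisymm h2 h0]
  · rintro ⟨x, y⟩ ⟨h2, -⟩ ⟨-, h1⟩
    simp only [Set.mem_singleton_iff] at h1 h2
    rw [h1, h2]
  · rintro ⟨-, h⟩
    simp only [Set.mem_singleton_iff] at h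
    linarith
  · rintro ⟨-, ⟨h, -⟩⟩
    simp only at h
    linarith
  · rintro ⟨-, h⟩
    simp only [Set.mem_singleton_iff] at h
    linarith

/-- edge adjacency of faces -/
def sq19Adj (f g : ℤ × ℤ) : Prop := |f.1 - g.1| + |f.2 - g.2| = 1

theorem sq19_adj_symm {f g : ℤ × ℤ} (h : sq19Adj f g) : sq19Adj g f := by
  unfold sq19Adj at h ⊢
  rw [abs_sub_comm g.1, abs_sub_comm g.2]
  exact h

/-- **no pinch**, symmetric form: two diagonal faces with the same status have a common edge neighbour with that status -/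
theorem sq19_no_pinch {d : ℝ} (hd : 0 < d) {F : Finset (ℤ × ℤ)} (hs : Sq19Simple d F) {f g : ℤ × ℤ}
    (h1 : |f.1 - g.1| = 1) (h2 : |f.2 - g.2| = 1) (hfg : f ∈ F ↔ g ∈ F) :
    ((f.1, g.2) ∈ F ↔ f ∈ F) ∨ ((g.1, f.2) ∈ F ↔ f ∈ F) := by
  by_contra hcon
  push Not at hcon
  obtain ⟨c1, c2⟩ := hcon
  obtain ⟨f1, f2⟩ := f
  obtain ⟨g1, g2⟩ := g
  simp only at h1 h2 c1 c2
  have e1 : g1 = f1 + 1 ∨ g1 = f1 - 1 := by
    rcases abs_eq (by norm_num : (0 : ℤ) ≤ 1) |>.1 h1 with h | h <;> omega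
  have e2 : g2 = f2 + 1 ∨ g2 = f2 - 1 := by
    rcases abs_eq (by norm_num : (0 : ℤ) ≤ 1) |>.1 h2 with h | h <;> omega
  rcases e1 with rfl | rfl <;> rcases e2 with rfl | rfl
  · refine sq19_no_cross hd hs (f1 + 1, f2 + 1) ?_ ?_ ?_ <;> simp only [add_sub_cancel_right] <;> tauto
  · refine sq19_no_cross hd hs (f1 + 1, f2) ?_ ?_ ?_ <;> simp only [add_sub_cancel_right] <;> tauto
  · refine sq19_no_cross hd hs (f1, f2 + 1) ?_ ?_ ?_ <;> simp only [add_sub_cancel_right] <;> tauto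
  · refine sq19_no_cross hd hs (f1, f2) ?_ ?_ ?_ <;> simp only <;> tauto

/-- the three cases of corner-sharing adjacency -/
theorem sq19_adj8_cases {f g : ℤ × ℤ} (h : at30Adj f g) :
    f = g ∨ sq19Adj f g ∨ (|f.1 - g.1| = 1 ∧ |f.2 - g.2| = 1) := by
  obtain ⟨h1, h2⟩ := h
  have a1 := abs_nonneg (f.1 - g.1)
  have a2 := abs_nonneg (f.2 - g.2)
  have c1 : |f.1 - g.1| = 0 ∨ |f.1 - g.1| = 1 := by omega
  have c2 : |f.2 - g.2| = 0 ∨ |f.2 - g.2| = 1 := by omega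
  rcases c1 with c1 | c1 <;> rcases c2 with c2 | c2
  · left
    ext
    · exact sub_eq_zero.1 (abs_eq_zero.1 c1)
    · exact sub_eq_zero.1 (abs_eq_zero.1 c2)
  · right; left; unfold sq19Adj; omega
  · right; left; unfold sq19Adj; omega
  · right; right; exact ⟨c1, c2⟩

/-- a class of faces of constant status closed under edge adjacency is closed under corner adjacency -/
theorem sq19_adj8_closed {d : ℝ} (hd : 0 < d) {F : Finset (ℤ × ℤ)} (hs : Sq19Simple d F) {S : Set (ℤ × ℤ)}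
    (hS : ∀ f g, (f ∈ F ↔ g ∈ F) → sq19Adj f g → f ∈ S → g ∈ S) {f g : ℤ × ℤ} (hfg : f ∈ F ↔ g ∈ F)
    (hadj : at30Adj f g) (hf : f ∈ S) : g ∈ S := by
  rcases sq19_adj8_cases hadj with rfl | h | ⟨h1, h2⟩
  · exact hf
  · exact hS f g hfg h hf
  · rcases sq19_no_pinch hd hs h1 h2 hfg with h | h
    · refine hS (f.1, g.2) g (h.trans hfg) ?_ (hS f (f.1, g.2) h.symm ?_ hf)
      · unfold sq19Adj; simp only [sub_self, abs_zero, add_zero]; exact h1
      · unfold sq19Adj; simp only [sub_self, abs_zero, zero_add]; exact h2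
    · refine hS (g.1, f.2) g (h.trans hfg) ?_ (hS f (g.1, f.2) h.symm ?_ hf)
      · unfold sq19Adj; simp only [sub_self, abs_zero, zero_add]; exact h2
      · unfold sq19Adj; simp only [sub_self, abs_zero, add_zero]; exact h1

/-- **the faces outside `F` are EDGE connected** -/
theorem sq19_compl_conn {d : ℝ} (hd : 0 < d) {F : Finset (ℤ × ℤ)} (hs : Sq19Simple d F) (S : Set (ℤ × ℤ))
    {f0 : ℤ × ℤ} (h0 : f0 ∉ F) (h0S : f0 ∈ S) (hS : ∀ f g, f ∉ F → g ∉ F → sq19Adj f g → f ∈ S → g ∈ S) :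
    ∀ g, g ∉ F → g ∈ S := by
  have key := at30_compl_conn hd F (sq19_simple_preconnected hs) (S ∪ (F : Set (ℤ × ℤ))) f0 h0 (Or.inl h0S) ?_
  · intro g hg
    exact (key g hg).resolve_right hg
  · intro f g hf hg hadj hfS
    refine sq19_adj8_closed hd hs (S := S ∪ (F : Set (ℤ × ℤ))) ?_ (by tauto) hadj hfS
    intro a b hab hadj' ha
    by_cases hb : b ∈ F
    · exact Or.inr hb
    · have haF : a ∉ F := fun h => hb (hab.1 h)
      exact Or.inl (hS a b haF hb hadj' (ha.resolve_right haF))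

/-- **the faces of `F` are EDGE connected** -/
theorem sq19_conn {d : ℝ} (hd : 0 < d) {F : Finset (ℤ × ℤ)} (hs : Sq19Simple d F) (S : Set (ℤ × ℤ))
    {f0 : ℤ × ℤ} (h0 : f0 ∈ F) (h0S : f0 ∈ S) (hS : ∀ f g, f ∈ F → g ∈ F → sq19Adj f g → f ∈ S → g ∈ S) :
    ∀ g, g ∈ F → g ∈ S := by
  intro g0 hg0
  by_contra hg0S
  have hS' : ∀ f g, (f ∈ F ↔ g ∈ F) → sq19Adj f g → f ∈ S ∪ (F : Set (ℤ × ℤ))ᶜ → g ∈ S ∪ (F : Set (ℤ × ℤ))ᶜ := by
    intro a b hab hadj' ha
    by_cases hb : b ∈ F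
    · have haF : a ∈ F := hab.2 hb
      exact Or.inl (hS a b haF hb hadj' (ha.resolve_right (fun h => h haF)))
    · exact Or.inr hb
  have hunion : closure (faceRegionSq d F) =
      (⋃ f ∈ {f : ℤ × ℤ | f ∈ F ∧ f ∈ S}, at30Sq d f) ∪ ⋃ f ∈ {f : ℤ × ℤ | f ∈ F ∧ f ∉ S}, at30Sq d f := by
    have hset : (F : Set (ℤ × ℤ)) = {f : ℤ × ℤ | f ∈ F ∧ f ∈ S} ∪ {f : ℤ × ℤ | f ∈ F ∧ f ∉ S} := by
      ext f
      simp only [Finset.mem_coe, Set.mem_ofPred_eq, Set.mem_union]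
      tauto
    rw [sq19_closure_region hd, ← Set.biUnion_union, ← hset]
    rfl
  have hfr : frontier (faceRegionSq d F) = frontier (closure (faceRegionSq d F)) := by
    have hint : interior (closure (faceRegionSq d F)) = faceRegionSq d F := by
      rw [sq19_closure_region hd]; rfl
    rw [frontier, frontier, closure_closure, hint, (sq19_isOpen_region d F).interior_eq]
  have hc := sq19_simple_preconnected hs
  rw [hfr, hunion] at hc
  refine at30_false_of_pieces (at30_isClosed_union hd _) (at30_isClosed_union hd _) ?_ ?_ ?_ hc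
  · rw [Set.disjoint_left]
    intro x hx1 hx2
    simp only [Set.mem_iUnion, Set.mem_ofPred_eq, exists_prop] at hx1 hx2
    obtain ⟨f, ⟨hfF, hfS⟩, hxf⟩ := hx1
    obtain ⟨g, ⟨hgF, hgS⟩, hxg⟩ := hx2
    have := sq19_adj8_closed hd hs hS' (f := f) (g := g) (by tauto) (at30_adj_of_mem hd hxf hxg) (Or.inl hfS)
    exact this.elim hgS (fun h => h hgF)
  · obtain ⟨x, hx⟩ := at30_sq_nonempty hd f0
    exact ⟨x, Set.mem_biUnion (show f0 ∈ {f : ℤ × ℤ | f ∈ F ∧ f ∈ S} from ⟨h0, h0S⟩) hx⟩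
  · obtain ⟨x, hx⟩ := at30_sq_nonempty hd g0
    exact ⟨x, Set.mem_biUnion (show g0 ∈ {f : ℤ × ℤ | f ∈ F ∧ f ∉ S} from ⟨hg0, hg0S⟩) hx⟩

theorem sq19_conn_reach {d : ℝ} (hd : 0 < d) {F : Finset (ℤ × ℤ)} (hs : Sq19Simple d F) {f g : ℤ × ℤ}
    (hf : f ∈ F) (hg : g ∈ F) : Relation.ReflTransGen (fun a b => sq19Adj a b ∧ b ∈ F) f g :=
  sq19_conn hd hs {g | Relation.ReflTransGen (fun a b => sq19Adj a b ∧ b ∈ F) f g} hf Relation.ReflTransGen.refl
    (fun _ _ _ hb hadj ha => Relation.ReflTransGen.tail ha ⟨hadj, hb⟩) g hg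

theorem sq19_compl_reach {d : ℝ} (hd : 0 < d) {F : Finset (ℤ × ℤ)} (hs : Sq19Simple d F) {f g : ℤ × ℤ}
    (hf : f ∉ F) (hg : g ∉ F) : Relation.ReflTransGen (fun a b => sq19Adj a b ∧ b ∉ F) f g :=
  sq19_compl_conn hd hs {g | Relation.ReflTransGen (fun a b => sq19Adj a b ∧ b ∉ F) f g} hf
    Relation.ReflTransGen.refl (fun _ _ _ hb hadj ha => Relation.ReflTransGen.tail ha ⟨hadj, hb⟩) g hg

/-- the forms for an admissible approximation -/
theorem sq19_approx_conn {D : Set (ℝ × ℝ)} {δ : ℕ → ℝ} {F : ℕ → Finset (ℤ × ℤ)} (happ : IsAdmissibleApprox D δ F)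
    (n : ℕ) {f g : ℤ × ℤ} (hf : f ∈ F n) (hg : g ∈ F n) :
    Relation.ReflTransGen (fun a b => sq19Adj a b ∧ b ∈ F n) f g :=
  sq19_conn_reach (happ.1 n) (sq19_simple_of_approx happ n) hf hg

theorem sq19_approx_compl_conn {D : Set (ℝ × ℝ)} {δ : ℕ → ℝ} {F : ℕ → Finset (ℤ × ℤ)}
    (happ : IsAdmissibleApprox D δ F) (n : ℕ) {f g : ℤ × ℤ} (hf : f ∉ F n) (hg : g ∉ F n) :
    Relation.ReflTransGen (fun a b => sq19Adj a b ∧ b ∉ F n) f g :=
  sq19_compl_reach (happ.1 n) (sq19_simple_of_approx happ n) hf hg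

/-- `F` is not empty (its frontier is the range of a map from the circle) -/
theorem sq19_nonempty {d : ℝ} (hd : 0 < d) {F : Finset (ℤ × ℤ)} (hs : Sq19Simple d F) : F.Nonempty := by
  obtain ⟨g, -, -, hr⟩ := hs
  have h : g 1 ∈ frontier (faceRegionSq d F) := hr ▸ Set.mem_range_self 1
  obtain ⟨⟨f, hf, -⟩, -⟩ := (sq19_mem_frontier_iff hd F _).1 h
  exact ⟨f, hf⟩

end Claimed.Agent.R292
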